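import Vale.Agent.P280Z.R1.Sk
import Vale.Agent.P280Z.Ld.Iso
import Vale.Agent.P281Z.Mf.Fib
import Mathlib.Geometry.Manifold.Complex

/-!
# P280Z, block R1: the row DSB
-/

open scoped Manifold ContDiff Topology
open Set Filter
open Vale.Agent.P272.K Vale.Agent.P285.H281.FD Vale.Agent.P281Z
open Vale.Agent.P277Z (Hol at_chart)
open Vale.Agent.P277.HD (pull)

noncomputable section

namespace Vale.Agent.P280Z.R1

theorem DsbH.const {n m : ℕ} {X : Mf n} {U : Mf m} {e : U.X → X.X} (se : Sub m n e) {u v : U.X}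
    (hc : IsConnected (e ⁻¹' {e u})) {a : U.X → ℂ} (h : ∀ w, e w = e u → Hol m a w)
    (hv : e v = e u) : a v = a u := by
  obtain ⟨F, i, hi⟩ := fib_emb (d := m - n) (y := e u)
    (Nat.add_sub_cancel' (se.sbm u).le).symm se.hol fun z _ => se.sbm z
  have := hi.conn.2 hc
  obtain ⟨z, rfl⟩ := hi.ex (y := v) hv
  obtain ⟨z', hz⟩ := hi.ex (y := u) rfl
  refine Eq.trans ?_ (congrArg a hz)
  refine MDifferentiable.apply_eq_of_compactSpace (I := 𝓘(ℂ, Cm (m - n)))
    (f := fun z => a (i z)) (fun x => ?_) z z'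
  have he := at_chart (n := m - n) x
  have h1 := ContMDiffAt.comp x (g := fun z => a (i ((chartAt (Cm (m - n)) x).symm z)))
    (contMDiffAt_iff_contDiffAt.2 (hi.hol.hol (h _ (hi.fib x)) _ he).contDiffAt)
    (chart_contMDiffAt he)
  exact (h1.congr_of_eventuallyEq ((at_near he).mono fun y hy =>
    (congrArg (fun y => a (i y)) hy.left_inv).symm)).mdifferentiableAt (by simp)

theorem dsb : DSB := by
  intro T hT n m X U e se M hM hc h
  choose t O o1 o2 o3 o4 using h
  choose σ hσ using fun x => (hc x).nonempty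
  replace hσ : ∀ x, e (σ x) = x := hσ
  choose c k using hM.cover
  let r : X.X → X.X → U.X → ℂ := fun x y u => t y (c u) u / t x (c u) u
  have r1 : ∀ x y u a, u ∈ M.U a → r x y u = t y a u / t x a u := fun x y u a ha => by
    rw [(o3 x).change a _ u ha (k u), (o3 y).change a _ u ha (k u),
      mul_div_mul_left _ _ (hM.ne_zero a _ u ha (k u))]
  have r2 : ∀ x y u, e u ∈ O x → Hol m (r x y) u := fun x y u hu =>
    ((sec_hol (o3 y) (k u)).div (sec_hol (o3 x) (k u)) (o4 x u hu _ (k u))).congr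
      ((lb_near hM (k u)).mono fun v hv => (r1 x y v _ hv).symm)
  have r3 : ∀ x y u, e u ∈ O x → r x y (σ (e u)) = r x y u := fun x y u hu =>
    DsbH.const se (hc _) (fun w hw => r2 x y w (hw ▸ hu)) (hσ _)
  have r4 : ∀ x z, z ∈ O x → t x (c (σ z)) (σ z) ≠ 0 := fun x z hz =>
    o4 x _ ((hσ z).symm ▸ hz) _ (k _)
  let B : Bd X.X := ⟨X.X, O, fun x y z => r x y (σ z)⟩
  have hB : IsLB n B := ⟨o2, fun x => ⟨x, o1 x⟩, fun x y ch z hz hx _ => by
      obtain ⟨u, rfl⟩ : ∃ u, e u = z := ⟨_, hσ z⟩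
      exact ((se.sbm u).hol_desc (se.hol.at u) (a := fun z => r x y (σ z)) ((r2 x y u hx).congr
        ((se.hol.cont.continuousAt.eventually ((o2 x).mem_nhds hx)).mono fun v hv =>
          (r3 x y v hv).symm)) ch hz).contDiffAt,
    fun x y z hx hy => div_ne_zero (r4 y z hy) (r4 x z hx), fun x y w z _ hy _ =>
      (mul_comm _ _).trans (div_mul_div_cancel₀ (r4 y z hy))⟩
  refine ⟨B, hB, Eq.trans ?_ (hT.c1.pull se.hol B hB)⟩
  refine (Ld.iso U M (pull e B) (fun a x u => t x a u) hM (se.hol.lb hB)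
    ⟨fun a x u ha _ => sec_hol (o3 x) ha, fun a x u ha hx => o4 x u hx a ha,
      fun a a' x y u ha ha' hx _ => ?_⟩).1 T hT.c1
  change t x a u * r x y (σ (e u)) = _
  rw [r3 x y u hx, r1 x y u a ha, mul_div_cancel₀ _ (o4 x u hx a ha), (o3 y).change a a' u ha ha']

end Vale.Agent.P280Z.R1
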