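import Vale.Agent.P280Z.Ma.UpA
import Vale.Agent.P281Z.Mf.Fib

/-!
# P280Z, block R1: relatively positive line bundles
-/

open scoped Manifold ContDiff Topology ComplexOrder
open Set Filter
open Vale.Agent.P272.K Vale.Agent.P285.H281.FD Vale.Agent.P281Z Vale.Agent.P280Z.Ma.Up
open Vale.Agent.P277Z (at_chart)
open Vale.Agent.P277Z.Slc (tr)
open Vale.Agent.P277.HD (pull)
open Vale.Agent.P284Z (levi)
open Vale.Agent.P284Y.Lib

noncomputable section

namespace Vale.Agent.P280Z.R1.RampH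

variable {n k : ℕ} {X Y : Type} [TopologicalSpace X] [ChartedSpace (Cm n) X]
  [IsManifold 𝓘(ℂ, Cm n) ω X] [TopologicalSpace Y] [ChartedSpace (Cm k) Y]
  [IsManifold 𝓘(ℂ, Cm k) ω Y] {L : Bd X}

theorem sm_at {p : X → Y} {x : X} {e : Chart n X} {c : Chart k Y} (hp : HolA n k p x)
    (he : At e x) (hc : At c (p x)) {u : Y → ℝ}
    (hu : ContDiffAt ℝ ∞ (fun z => u (c.symm z)) (c (p x))) :
    ContDiffAt ℝ ∞ (fun z => u (p (e.symm z))) (e x) := by
  have h2 : (fun z => u (p (e.symm z))) =ᶠ[𝓝 (e x)] fun z => u (c.symm (c (p (e.symm z)))) :=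
    (at_map hp.cont he hc).mono fun z hz => by simp only [hz.left_inv]
  have h3 : ContDiffAt ℝ ∞ (fun z => u (c.symm z)) (c (p (e.symm (e x)))) := by
    rwa [he.left_inv]
  exact (ContDiffAt.comp (g := fun z => u (c.symm z)) (e x) h3
    ((hp.an he hc).contDiffAt.restrict_scalars ℝ)).congr_of_eventuallyEq h2

theorem sum_met [T2Space X] [CompactSpace X] (hL : IsLB n L) {ι : Type} (O : ι → Set X)
    (hO : ∀ a, IsOpen (O a)) (hc : ∀ y, ∃ a, y ∈ O a) (j : ι → L.ι) (f : ι → X → ℝ)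
    (h0 : ∀ a, O a ⊆ L.U (j a))
    (h1 : ∀ a x (e : Chart n X), x ∈ O a → At e x →
      ContDiffAt ℝ ∞ (fun z => f a (e.symm z)) (e x)) :
    ∃ ψ, IsMet n L ψ ∧ ∀ i x (s : ℝ),
      (∀ a, x ∈ O a → f a x + Real.log (‖L.g i (j a) x‖ ^ 2) = s) → ψ i x = s := by
  obtain ⟨s, ρ, r1, r2, r3, r4⟩ := pou (n := n) O hO hc
  refine ⟨fun i x => ∑ y ∈ s, ρ y x * (f y x + Real.log (‖L.g i (j y) x‖ ^ 2)),
    ⟨fun i e x he hi => ContDiffAt.sum fun y _ => ?_, fun i i' x hi hi' => ?_⟩,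
    fun i x t ht => ?_⟩
  · by_cases hx : x ∈ O y
    · exact (r1 y e x he).mul ((h1 y x e hx he).add (lg_sm hL he hi (h0 y hx)).1)
    · refine contDiffAt_const.congr_of_eventuallyEq (f := fun _ => (0 : ℝ))
        ((at_ev he (notMem_tsupport_iff_eventuallyEq.1 fun h => hx (r3 y h))).mono fun z hz => ?_)
      simp only [hz, Pi.zero_apply, zero_mul]
  · rw [← one_mul (Real.log _), ← r4 x, Finset.sum_mul, ← Finset.sum_add_distrib]
    refine Finset.sum_congr rfl fun y _ => ?_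
    by_cases hy : ρ y x = 0
    · simp [hy]
    · have h2 := h0 y (r3 y (subset_tsupport _ hy))
      rw [← hL.cocycle i i' (j y) x hi hi' h2, norm_mul, mul_pow,
        Real.log_mul (pow_ne_zero _ (norm_ne_zero_iff.2 (hL.ne_zero _ _ x hi hi')))
          (pow_ne_zero _ (norm_ne_zero_iff.2 (hL.ne_zero _ _ x hi' h2)))]
      ring
  · rw [← one_mul t, ← r4 x, Finset.sum_mul]
    refine Finset.sum_congr rfl fun y _ => ?_
    by_cases hy : ρ y x = 0
    · simp [hy]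
    · rw [ht y (r3 y (subset_tsupport _ hy))]

/-- metrics extend from a compact submanifold -/
theorem ext_met [T2Space X] [CompactSpace X] [CompactSpace Y] (hL : IsLB n L) {i : Y → X}
    {S : Set X} (hi : Emb k n i S) {φ : L.ι → Y → ℝ} (hφ : IsMet k (pull i L) φ) :
    ∃ ψ, IsMet n L ψ ∧ ∀ j z, i z ∈ L.U j → ψ j (i z) = φ j z := by
  have h1 : ∀ u : X, ∃ (O : Set X) (j : L.ι) (f : X → ℝ), IsOpen O ∧ u ∈ O ∧ O ⊆ L.U j ∧
      (∀ x (e : Chart n X), x ∈ O → At e x → ContDiffAt ℝ ∞ (fun z => f (e.symm z)) (e x)) ∧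
      ∀ z, i z ∈ O → f (i z) = φ j z := fun u => by
    obtain ⟨j, hj⟩ := hL.cover u
    by_cases hu : u ∈ S
    · obtain ⟨z, rfl⟩ := hi.ex hu
      obtain ⟨g, g1, g2, g3⟩ := (hi.imm z).ret (hi.hol.at z)
      have g4 : ∀ᶠ y in 𝓝 (i z), i (g y) ∈ L.U j :=
        ((hi.hol.at (g (i z))).cmp g2).cont.eventually
          ((hL.isOpen j).mem_nhds (by simpa only [g1] using hj))
      obtain ⟨O, o1, o2, o3⟩ := eventually_nhds_iff.1 ((((hL.isOpen j).eventually_mem hj).and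
        g4).and (g2.near.and (hi.ev.1 g3)))
      exact ⟨O, j, fun y => φ j (g y), o2, o3, fun y hy => (o1 y hy).1.1, fun x e hx he =>
        sm_at (o1 x hx).2.1 he (at_chart _) (hφ.smooth j _ _ (at_chart _) (o1 x hx).1.2),
        fun z hz => congrArg (φ j) ((o1 _ hz).2.2 z rfl)⟩
    · exact ⟨L.U j ∩ Sᶜ, j, fun _ => 0, (hL.isOpen j).inter hi.closed.isOpen_compl, ⟨hj, hu⟩,
        inter_subset_left, fun _ _ _ _ => contDiffAt_const, fun z hz => (hz.2 (hi.mem z)).elim⟩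
  choose O j f o1 o2 o3 o4 o5 using h1
  obtain ⟨ψ, h2, h3⟩ := sum_met hL O o1 (fun y => ⟨y, o2 y⟩) j f o3 o4
  exact ⟨ψ, h2, fun a z ha => h3 a _ _ fun u hu => by
    rw [o5 u z hu]
    exact (hφ.change a (j u) z ha (o3 u hu)).symm⟩

/-- positivity along the fibres is an open condition -/
theorem near {p : X → Y} (hp : HolM n k p) (hL : IsLB n L) {Λ : Bd Y} (hΛ : IsLB k Λ)
    (hP : Pos k Λ) {ψ : L.ι → X → ℝ} (hψ : IsMet n L ψ) {x : X} {j : L.ι} (hj : x ∈ L.U j)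
    (h : ∀ v, v ≠ 0 → df p (chartAt (Cm n) x) (chartAt (Cm k) (p x)) x v = 0 →
      0 < Lv (ψ j) (chartAt (Cm n) x) x v) :
    ∀ᶠ y in 𝓝 x, ∀ i (e : Chart n X), y ∈ L.U i → At e y → ∀ v, v ≠ 0 →
      (∀ c : Chart k Y, At c (p y) → df p e c y v = 0) → 0 < Lv (ψ i) e y v := by
  obtain ⟨φ, h1, h2⟩ := hP
  obtain ⟨m, hm⟩ := hΛ.cover (p x)
  have he := at_chart (n := n) x
  have k1 := fun y (e : Chart n X) (he : At e y) hm c (hc : At c (p y)) =>
    pull_sm hp he hc (h1.smooth m c _ hc hm)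
  have k2 := (pd_iff ((h1.smooth m _ _ (at_chart _) hm).of_le two_le_inf)).1
    (h2 m _ _ (at_chart _) hm)
  have k3 := k1 x _ he hm _ (at_chart _)
  obtain ⟨t, ht⟩ := pos_gen ((hψ.smooth j _ x he hj).of_le two_le_inf) (k3.1.of_le two_le_inf)
    (fun v => by
      refine le_of_le_of_eq ?_ (k3.2.1 v).symm
      by_cases h3 : df p (chartAt (Cm n) x) (chartAt (Cm k) (p x)) x v = 0
      · rw [h3, Lv, levi_zero]
      · exact (k2 _ h3).le)
    fun v hv h0 => h v hv (by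
      by_contra h3
      exact (k2 _ h3).ne' ((k3.2.1 v).symm.trans h0))
  filter_upwards [((chartAt (Cm n) x).continuousAt he.2).eventually ht, at_near he,
    (hL.isOpen j).eventually_mem hj,
    hp.cont.continuousAt.eventually ((hΛ.isOpen m).eventually_mem hm)] with y y1 y2 y3 y4 i e hi
    he' v hv h0
  have y5 := y1 _ fun k => hv (tr_inj y2 he' (k.trans (map_zero _).symm))
  have y6 := (k1 y _ y2 y4 _ (at_chart _)).2.1 (tr (chartAt (Cm n) x) e y v)
  have y7 := DFunLike.congr_fun (df_comp (f := fun x : X => x) (hp.at y) (holM_id.at y) he' y2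
    (at_chart (p y))) v
  rw [h0 _ (at_chart _)] at y7
  rw [show df p (chartAt (Cm n) x) (chartAt (Cm k) (p y)) y (tr (chartAt (Cm n) x) e y v) = 0
    from y7.symm, Lv, Lv, levi_zero] at y6
  rw [y6, mul_zero, add_zero] at y5
  rwa [lv_chg hL hψ he' y2 hi y3]

theorem main {n m r : ℕ} (X : Mf n) (U : Mf m) (e : U.X → X.X) (L : Bd U.X) (A : Bd X.X)
    (hm : m = n + r) (he : HolM m n e) (hs : ∀ x, Sbm m n e x) (hL : IsLB m L) (hA : IsLB n A)
    (hP : Pos n A)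
    (h : ∀ (Z : Mf r) (i : Z.X → U.X) (x : X.X), Emb r m i (e ⁻¹' {x}) → Pos r (pull i L)) :
    ∃ c : ℕ, Pos m (L.mul (pull e (A.pow c))) := by
  have h1 : ∀ x : X.X, ∃ (O : Set X.X) (ψ : L.ι → U.X → ℝ), IsOpen O ∧ x ∈ O ∧ IsMet m L ψ ∧
      ∀ y, e y ∈ O → ∀ i (c : Chart m U.X), y ∈ L.U i → At c y → ∀ v, v ≠ 0 →
        (∀ c' : Chart n X.X, At c' (e y) → df e c c' y v = 0) → 0 < Lv (ψ i) c y v := fun x => by
    obtain ⟨Z, i, hi⟩ := fib_emb (y := x) hm he fun u _ => hs u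
    obtain ⟨φ, h2, h3⟩ := h Z i x hi
    obtain ⟨ψ, h4, h5⟩ := ext_met hL hi h2
    obtain ⟨O, o1, o2, o3⟩ := eventually_nhds_iff.1
      (he.cont.isClosedMap.eventually_nhds_fiber x fun u hu => by
        obtain ⟨z, rfl⟩ := hi.ex hu
        obtain ⟨j, hj⟩ := hL.cover (i z)
        refine near he hL hA hP h4 hj fun v hv h0 => ?_
        obtain ⟨w, rfl⟩ := (hi.fib_ker he (hs _) (at_chart z) (at_chart _) (at_chart _) v).1 h0
        rw [← (pull_sm hi.hol (at_chart z) (at_chart _)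
          (h4.smooth j _ _ (at_chart _) hj)).2.1 w, Lv, levi_congr (v := fun y => φ j
            ((chartAt (Cm r) z).symm y)) ((at_ev (at_chart z) (hi.hol.cont.continuousAt.eventually
              ((hL.isOpen j).eventually_mem hj))).mono fun y hy => h5 j _ hy)]
        exact (pd_iff ((h2.smooth j _ _ (at_chart z) hj).of_le two_le_inf)).1
          (h3 j _ _ (at_chart z) hj) w fun k => hv (by rw [k, map_zero]))
    exact ⟨O, ψ, o2, o3, h4, fun y hy => o1 _ hy y rfl⟩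
  choose O ψ o1 o2 o3 o4 using h1
  obtain ⟨ψ, h2, h3⟩ := glue (L := L) he O o1 (fun y => ⟨y, o2 y⟩) ψ
    (fun a i x c ha hi hc => ⟨(o3 a).smooth i c x hc hi, o4 a x ha i c hi hc⟩)
    fun a i j x _ hi hj => (o3 a).change i j x hi hj
  exact rel_pos he hL hA hP h2 h3

end Vale.Agent.P280Z.R1.RampH
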