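import Vale.Agent.P280Z.R1.Sk
import Vale.Agent.P280Z.R1.RampA

/-!
# P280Z, block R1: row RAMP
-/

namespace Vale.Agent.P280Z.R1

/-- row RAMP -/
theorem ramp : RAMP := fun X U e L A hm he hL hA hP h =>
  RampH.main X U e L A hm he.hol he.sbm hL hA hP h

end Vale.Agent.P280Z.R1
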