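import Vale.Agent.P280Z.R1.Defs
import Vale.Agent.P280Z.Ld.All
import Vale.Agent.P280Z.Co.Fp

/-!
# P280Z, block R1: row REXT
-/

open scoped Manifold ContDiff Topology
open Set Filter
open Vale.Agent.P272.K Vale.Agent.P285.H281.FD Vale.Agent.P281Z
open Vale.Agent.P277Z (Hol at_chart hol_const)
open Vale.Agent.P277Z.Slc (dd)
open Vale.Agent.P277.HD (pull)
open Vale.Agent.P280Z.Ld (Γ Va res)

noncomputable section

namespace Vale.Agent.P280Z.R1

namespace RextH

/-- extension by zero from a union of components -/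
theorem base {r : ℕ} {U Z : Mf r} {i : Z.X → U.X} {S : Set U.X} (hi : Emb r r i S) (M : Bd U.X)
    {u : (pull i M).ι → Z.X → ℂ} (hu : u ∈ Γ r (pull i M)) : ∃ σ ∈ Γ r M, res i M σ = u := by
  have h1 : ∀ a z, Function.extend i (u a) 0 (i z) = u a z := fun a z => hi.inj.extend_apply _ _ z
  have h2 : ∀ a y, y ∉ range i → Function.extend i (u a) 0 y = 0 := fun a y k =>
    Function.extend_apply' _ _ y k
  refine ⟨fun a => Function.extend i (u a) 0, ⟨isSec_of (fun a y ha => ?_) fun a b y ha hb => ?_,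
    fun a y ha => ?_⟩, funext₂ h1⟩
  · by_cases hy : y ∈ range i
    · obtain ⟨z, rfl⟩ := hy
      obtain ⟨g, k1, k2, -, -, k3⟩ := (hi.imm z).inv (hi.hol.at z)
      refine (k2.hol (a := u a) (k1.symm ▸ sec_hol hu.1 ha)).congr (k3.mono fun w hw => ?_)
      rw [← h1 a (g w), hw]
    · exact (hol_const 0 y).congr ((hi.cemb.isClosed_range.isOpen_compl.eventually_mem hy).mono
        fun w hw => (h2 a w hw).symm)
  · by_cases hy : y ∈ range i
    · obtain ⟨z, rfl⟩ := hy
      rw [h1 a z, h1 b z]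
      exact hu.1.change a b z ha hb
    · rw [h2 a y hy, h2 b y hy, mul_zero]
  · by_cases hy : y ∈ range i
    · obtain ⟨z, rfl⟩ := hy
      exact (h1 a z).trans (hu.2 a z ha)
    · exact h2 a y hy

/-- the pull back of a hypersurface by a submersion -/
theorem cut {n m m' : ℕ} {X : Mf (n + 1)} {X' : Mf n} {U : Mf m} {U' : Mf m'} {e : U.X → X.X}
    {j : X'.X → X.X} {e' : U'.X → X'.X} {g : U'.X → U.X} {A : Bd X.X} {σ : A.ι → X.X → ℂ}
    (h : Cart e j e' g) (hc : Cut A σ j) : Cut (pull e A) (res e A σ) g := by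
  refine ⟨by have := h.dim; omega, h.sf.hol.lb hc.lb, h.sf.hol.sec hc.sec, ⟨h.hg', fun z z' k => ?_,
    fun z => Imm.of_chart (h.hg'.at z) (at_chart z) (at_chart _)
      ((injective_iff_map_eq_zero _).2 fun v hv => h.imm z v ?_ hv), Set.ext fun y => ?_⟩,
    fun z a ha c hz k => ?_⟩
  · exact (h.uniq (e' z') (g z') (h.comm z').symm).unique
      ⟨hc.emb.inj (by rw [← h.comm, ← h.comm, k]), k⟩ ⟨rfl, rfl⟩
  · have k := at_chart (n := n + 1) (j (e' z))
    refine (injective_iff_map_eq_zero _).1 (hc.emb.imm (e' z) _ _ (at_chart _) k) _ ?_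
    have k1 := df_comp (hc.emb.hol.at _) (h.sf'.hol.at z) (at_chart z) (at_chart _) k
    rw [← funext h.comm, df_comp (h.sf.hol.at _) (h.hg'.at z) (at_chart z) (at_chart _)
      ((h.comm z).symm ▸ k)] at k1
    refine (DFunLike.congr_fun k1 v).symm.trans ?_
    rw [ContinuousLinearMap.comp_apply, hv, map_zero]
  · refine ⟨fun ⟨z, k⟩ => ?_, fun k => ?_⟩
    · have := hc.emb.mem (e' z)
      rwa [← h.comm, k] at this
    · obtain ⟨w, hw⟩ := hc.emb.ex (y := e y) k
      exact (h.uniq w y hw).exists.imp fun _ k => k.2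
  · have k0 := at_chart (n := n + 1) (e (g z))
    refine hc.tr (e' z) a (h.comm z ▸ ha) _ (h.comm z ▸ k0) (ContinuousLinearMap.ext fun v => ?_)
    obtain ⟨w, rfl⟩ := h.sf.sbm _ c _ hz k0 v
    rw [← h.comm]
    exact DFunLike.congr_fun
      ((dd_comp (sec_hol hc.sec ha) (h.sf.hol.at _) hz k0).symm.trans k) w

end RextH

open RextH in
/-- row REXT -/
theorem rext : REXT := by
  intro T hT n
  induction n with
  | zero =>
    intro m r N X U Z e se A s M x i hm _ _ hi _ u hu
    obtain rfl : m = r := by omega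
    exact base hi M hu
  | succ n ih =>
    intro m r N X U Z e se A s M x i hm h hM hi hK u hu
    obtain ⟨σ, X', j, x', hc, rfl⟩ := h.cut Ld.ld.ber x
    obtain ⟨U', e', g, k, -⟩ := fp (n + r) e j (by omega) se hc.emb.hol
    have hc' := cut k hc
    obtain ⟨i', hi', k1⟩ := hc'.emb.fac hi fun y hy => by
      have := hc.emb.mem x'
      rwa [← show e y = j x' from hy] at this
    obtain rfl : i = fun z => g (i' z) := (funext k1).symm
    rw [show g ⁻¹' (e ⁻¹' {j x'}) = e' ⁻¹' {x'} from Set.ext fun z => by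
      rw [mem_preimage, mem_preimage, k.comm]
      exact hc.emb.inj.eq_iff] at hi'
    have hg := hc'.emb.hol
    have e1 := hT.c1.pull se.hol A h.lb
    obtain ⟨w, hw, k2⟩ := ih X' U' Z e' k.sf' _ _ (pull g M) x' i' rfl (h.pull hc.emb) (hg.lb hM) hi'
      (by
        rw [(Ld.ld.adj hc').2 T hT.c1, hT.c1.pull hg M hM, hT.c1.pull hc.emb.hol A h.lb,
          ← hT.rg.pull_comp k.sf'.hol hc.emb.hol (se.hol.comp hg) k.comm,
          hT.rg.pull_comp hg se.hol (se.hol.comp hg) fun _ => rfl, e1, ← map_smul, ← map_sub,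
          ← map_sub, ← sub_sub, sub_sub _ _ (_ • _), ← one_smul ℝ (T.pull se.hol _), smul_smul,
          ← add_smul, mul_one, add_comm (1 : ℝ), ← Nat.cast_succ]
        exact hT.po.mono (hT.po.pull hg hK) fun y v hv =>
          (injective_iff_map_eq_zero _).1 (hc'.emb.imm y _ _ (at_chart _) (at_chart _)) v hv) u hu
    have h1 : T.Nn U ((n : ℝ) • T.pull se.hol (T.c1 X A)) := by
      rcases n.eq_zero_or_pos with rfl | hn
      · rw [Nat.cast_zero, zero_smul]
        exact hT.po.zero U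
      · exact hT.po.smul _ (Nat.cast_pos.2 hn)
          (hT.po.mono (hT.po.pull se.hol (hT.c1.bpf X A h.lb h.gen)) fun _ => le_top)
    obtain ⟨τ, hτ, k3⟩ := Ld.ld.ext T hT hc' M hM (by
      rw [e1, show T.c1 U M - T.c1 U (Bd.can m U.X) - T.pull se.hol (T.c1 X A) = T.c1 U M -
        T.c1 U (Bd.can m U.X) - ((n + 1 : ℕ) : ℝ) • T.pull se.hol (T.c1 X A) +
          (n : ℝ) • T.pull se.hol (T.c1 X A) by rw [Nat.cast_succ, add_smul, one_smul]; abel]
      exact hT.po.mono (hT.po.add hK h1) fun _ => inf_le_left) w hw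
    exact ⟨τ, hτ, k2 ▸ k3 ▸ rfl⟩

end Vale.Agent.P280Z.R1
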