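import Vale.Agent.P280Z.R1.Defs
import Vale.Agent.P280Z.Ma.Ex
import Vale.Agent.P280Z.Rh.Int
import Vale.Agent.P280Z.Rh.Api
import Vale.Agent.P280Z.En.Cq

/-!
# P280Z, block R1: consequences of the theorem of Riemann and Roch, integrality
-/

open scoped Manifold ContDiff Topology
open Set Filter PowerSeries
open Vale.Agent.P272.K Vale.Agent.P285.H281.FD Vale.Agent.P281Z
open Vale.Agent.P277Z.Slc (lin)
open Vale.Agent.P280Z.Ld (Γ h0 not_nz)
open Vale.Agent.P280Z.Rh (cX c1_acan c1_inv lb_inv lb_can pull_inj)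
open Vale.Agent.P280Z.Gm (rt fibi)

noncomputable section

namespace Vale.Agent.P280Z.R1

namespace XtH

variable {T : CT} {n m : ℕ} {V : Mf n} {Z : Mf m} {a b c : T.H V}

variable (T V a) in
/-- classes of line bundles -/
def Lc : Prop := ∃ L, IsLB n L ∧ T.c1 V L = a

theorem Lc.add (hT : T.OK) : Lc T V a → Lc T V b → Lc T V (a + b)
  | ⟨L, h, e⟩, ⟨M, h', e'⟩ => ⟨_, lb_mul h h', e ▸ e' ▸ hT.c1.mul V L M h h'⟩

theorem Lc.smul (hT : T.OK) (k : ℤ) : Lc T V a → Lc T V ((k : ℝ) • a)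
  | ⟨L, h, e⟩ => ⟨_, lb_lin (B := fun _ : Unit => L) (fun _ => h) fun _ => k, by
      rw [hT.c1.lin V _ _ fun _ => h, Fintype.sum_unique, e]⟩

theorem Lc.neg (hT : T.OK) : Lc T V a → Lc T V (-a)
  | ⟨_, h, e⟩ => ⟨_, lb_inv h, e ▸ c1_inv hT h⟩

theorem Lc.pull (hT : T.OK) {f : Z.X → V.X} (hf : HolM m n f) : Lc T V a → Lc T Z (T.pull hf a)
  | ⟨L, h, e⟩ => ⟨_, hf.lb h, e ▸ hT.c1.pull hf L h⟩

theorem lc_cX (hT : T.OK) (V : Mf n) : Lc T V (cX T V) := ⟨_, lb_inv (lb_can V), c1_acan hT V⟩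

theorem int3 (hT : T.OK) (hP : ∃ A : Bd V.X, IsLB n A ∧ Pos n A) (ha : Lc T V a) (hb : Lc T V b)
    (hc : Lc T V c) {i j l : ℕ} (h : i + j + l = n) :
    ∃ z : ℤ, T.int V (a ^ i * b ^ j * c ^ l) = z := by
  subst h
  obtain ⟨A, a1, rfl⟩ := ha
  obtain ⟨B, b1, rfl⟩ := hb
  obtain ⟨C, c1, rfl⟩ := hc
  simpa [Fin.prod_univ_add] using Rh.int_ T hT V
    (Fin.append (Fin.append (fun _ => A) fun _ => B) fun _ => C) hP
    (Fin.addCases (Fin.addCases (by simpa using fun _ => a1) (by simpa using fun _ => b1))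
      (by simpa using fun _ => c1))

theorem dg_exc (hT : T.OK) {W : PowerSeries (T.H V)} (h : ∀ k, T.Dg V (k + 1) (coeff k W))
    (d : ℕ) : T.Dg V d (exc W d) := by
  induction d using Nat.strong_induction_on with
  | _ d ih =>
    rcases d with _ | d
    · rw [exc]
      exact hT.rg.dg_one V
    · rw [exc, CT.Dg, map_smul, map_sum]
      refine congrArg _ (Finset.sum_congr rfl fun i _ => ?_)
      have := hT.rg.dg_mul V _ _ _ _ (h (d - i)) (ih i i.2)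
      rwa [show d - i + 1 + i = d + 1 by omega] at this

theorem ex_pull {f : Z.X → V.X} (hf : HolM m n f) {p : ℕ → T.H V}
    (h : ∀ j, T.ps Z (VB.tan m Z.X) (j + 1) = T.pull hf (p (j + 1))) (a : T.H V) :
    T.int Z (T.pull hf (coeff m (Ex (C a + TL p)))) = T.RR Z (T.pull hf a) := by
  rw [CT.RR, Ex, Ex, coeff_mk, coeff_mk, Gm.Eta.exc_map (T.pull hf) (W := C a + TL p) fun k => by
    simp only [map_add, coeff_C, TL, coeff_mk, map_smul, h, apply_ite (T.pull hf), map_zero]]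

theorem h0_neg (hT : T.OK) (hc : ConnectedSpace Z.X) (hm : 0 < m) {w : T.H Z} (hw : T.Kc Z w)
    {M : Bd Z.X} (hM : IsLB m M) {x : ℝ} (hx : x < 0) (e : T.c1 Z M = x • w) : h0 m M = 0 := by
  suffices k : Γ m M = ⊥ by rw [h0, k, finrank_bot]
  refine (Submodule.eq_bot_iff _).2 fun s hs => funext₂ fun a z => ?_
  by_contra k
  have k1 := not_not.1 (mt (not_nz hM hs.1 (not_not.1 (mt (hs.2 a z) k))).1 k)
  have k2 := ((Gm.RtH.an_z hM hs.1).thin fun e =>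
    (e ▸ mem_univ z : z ∈ {x | ¬ NZ M s x}) k1).dense
  simp only [compl_ofPred, not_not] at k2
  obtain ⟨m, rfl⟩ := Nat.exists_eq_succ_of_ne_zero hm.ne'
  have k3 := (hT.eff Z M s m (fun _ => w) rfl hM hs.1 k2 fun _ => Rh.kc_nn hT hw).1
  rw [e, Fin.prod_const, smul_mul_assoc, ← pow_succ', map_smul, smul_eq_mul] at k3
  exact k3.not_gt (mul_neg_of_neg_of_pos hx (Ma.kc_vol hT hw z))

end XtH

open XtH in
theorem xt : XT := by
  intro T t n m N r d D k δ V P pt F E s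
  have hT := s.ok
  have fs := En.fs_of s
  have hF := fs.fa hT
  have r1 : Gm.RR1 T := (rt T hT t.hrr).1
  have hk : n + m - 1 = k := by have := s.dim; omega
  obtain ⟨l1, l2, -⟩ := Ma.lbs F s.hyp
  obtain ⟨x₀⟩ := s.fano.1.toNonempty
  obtain ⟨Z, i, hi, ψ, z1, z2, z3, z4, -, -, -, z5⟩ := En.fibr s t.hrr x₀
  have ea := Ma.aa_eq hT F s.hyp E
  have pi := fun b => pull_inj hT fs.sp rfl (Ma.p_onto F) (Ma.conn_K F s.cU) s.kU (b := b)
  have ns := s.ns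
  set S := Cv.nsF T F E
  have cτ : Lc T F.U S.τ := ⟨_, l2, rfl⟩
  have cE : Lc T F.U (S.pE 1) :=
    (congrArg _ (add_neg_eq_iff_eq_add.2 ((Ma.rel.ps T hT F.e_hol s.rel).2.2 1))).mp
      ((lc_cX hT F.U).add hT (((lc_cX hT V).pull hT F.e_hol).neg hT))
  have el : ∀ b, T.Dg F.U m b → S.el b = algebraMap ℝ _ (T.int Z (T.pull hi.hol b)) := fun b h => by
    obtain ⟨c, hc⟩ := ns.h0 (S.el b) ((ns.el_pr 0 b).trans (congrArg _ (by rwa [zero_add])))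
    rw [(fibi T hT F.e x₀ s.dim fs.se).2 Z i hi b c hc, hc]
  have χ : ∀ a b : ℤ, S.χF m a b =
      algebraMap ℝ _ (T.RR Z (T.pull hi.hol ((a : ℝ) • S.τ + (b : ℝ) • S.pE 1))) := fun a b => by
    rw [← ex_pull hi.hol z5]
    refine el _ ?_
    rw [Ex, coeff_mk]
    refine dg_exc hT (fun j => ?_) m
    have e1 : T.pr F.U 1 S.τ = S.τ := ns.dτ
    have e2 : ∀ j, T.pr F.U j (S.pE j) = S.pE j := ns.dE
    rcases j with _ | j <;> simp [CT.Dg, TL, e1, e2]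
  have kψ : ∀ {u} {x y : ℝ}, u = x • (-S.τ) + y • S.hh → T.pull hi.hol u = x • ψ := fun e => by
    rw [e, map_add, map_smul, map_smul, z3, z4, smul_zero, add_zero]
  have cK : -T.c1 Z (Bd.can m Z.X) = T.pull hi.hol (S.pE 1) := (hT.ch.tan Z).symm.trans (z5 0)
  have hr : ∀ (a b : ℤ) (x y : ℝ), 0 < x →
      (a : ℝ) • S.τ + ((b : ℝ) + 1) • S.pE 1 = x • (-S.τ) + y • S.hh → ∃ M, IsLB m M ∧
        T.c1 Z M = T.pull hi.hol ((a : ℝ) • S.τ + (b : ℝ) • S.pE 1) ∧ S.χF m a b = h0 m M :=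
    fun a b x y hx e => by
      obtain ⟨M, h1, h2⟩ := ((cτ.smul hT a).add hT (cE.smul hT b)).pull hT hi.hol
      refine ⟨M, h1, h2, ?_⟩
      rw [χ, ← h2, ← t.hrr Z M h1, map_natCast]
      rw [Ld.Ap, sub_eq_add_neg, cK, h2, ← map_add, kψ (Eq.trans (by module) e)]
      exact hT.po.smul x hx z2
  refine ⟨(congrArg _ hk).mpr (Ma.ex_of hT F s.hyp E s.cU ns.toOK0), r1 V s.fano.1 hF, En.rr_nat hT t.hrr hF, ?_,
    fun i j l e => int3 hT ((Ma.up F s.hyp (Ma.kn F s.hyp)).elim fun c h => ⟨_, lb_mul l2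
      (F.p_hol.lb (lb_pow l1 c)), h⟩) ((lc_cX hT V).pull hT F.e_hol) cτ cE (e.trans s.dim.symm),
    fun j l e => ?_, fun a b x y hx e => (hr a b x y hx e).elim fun M h => ⟨_, h.2.2⟩,
    fun x y hx e => ?_, fun a b x y x' y' h1 hx hx' e e' => ?_, fun x hx e => ?_⟩
  · have := int3 hT ⟨_, lb_inv (lb_can V), s.fano.2⟩ (lc_cX hT V) (lc_cX hT V) (lc_cX hT V)
      (i := n) (j := 0) (l := 0) rfl
    rwa [pow_zero, mul_one, mul_one] at this
  · obtain ⟨A, a1, a2⟩ := (cτ.neg hT).pull hT hi.hol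
    obtain ⟨z, hz⟩ := int3 hT ⟨A, a1, hT.kp Z A a1 (a2 ▸ z3 ▸ z2)⟩ (cτ.pull hT hi.hol)
      (cτ.pull hT hi.hol) (cE.pull hT hi.hol) (i := 0) ((congrArg (· + l) (zero_add j)).trans e)
    refine ⟨z, ?_⟩
    rw [el _ (e ▸ hT.rg.dg_mul _ _ _ _ _ (Ma.dg_pow hT ns.dτ j) (Ma.dg_pow hT (ns.dE 1) l)), map_mul,
      map_pow, map_pow, ← one_mul (_ ^ j), ← pow_zero, hz, map_intCast]
  · rw [χ, Int.cast_zero, zero_smul, zero_smul, add_zero, map_zero, r1 Z z1, map_one]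
    rw [Gm.Fa, cK, kψ e]
    exact hT.po.smul x hx z2
  · obtain ⟨M, k1, k2, k3⟩ := hr a b x y hx e
    rw [k3, h0_neg hT z1 h1 z2 k1 hx' (k2.trans (kψ e')), Nat.cast_zero]
  · have k1 : T.push F.p S.hh = 1 := sub_eq_zero.1 (pi _ (by
      rw [map_sub, map_one]
      exact sub_eq_zero.2 ns.Tη))
    have k2 := sub_eq_zero.1 (pi (cX T F.K - x • (d : ℝ)⁻¹ • T.c1 F.K (Lam F)) (by
      rw [map_sub, map_smul, ← ea]
      exact sub_eq_zero.2 e))
    rw [hk, ← r1 F.K (Ma.conn_K F s.cU) (by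
      rw [Gm.Fa, ← hT.ch.tan]
      exact (congrArg _ k2).mpr (hT.po.smul x hx (Ma.kc_lam hT F s.hyp))), CT.RR,
      ← one_mul (coeff k (Ex (C 0 + TL (T.ps F.K _)))), ← k1,
      ← hT.pu.proj fs.sp, hT.pu.int fs.sp, Ex, Ex, coeff_mk, coeff_mk,
      Gm.Eta.exc_map (T.pull F.p_hol) (W := C 0 + TL (T.ps F.K (VB.tan k F.K.X))) fun j => by
        simp only [map_zero, zero_add, TL, coeff_mk, map_smul]
        rfl]
    rfl

end Vale.Agent.P280Z.R1
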