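import Vale.Agent.P280Z.Cv.Cs
import Vale.Agent.P280Z.Tr.Sk
import Vale.Agent.P280Z.Ma.Nx

/-!
# P280Z, block R1: seams and rows for second Betti number one
-/

open scoped Manifold ContDiff Topology Matrix
open Set Filter PowerSeries
open Vale.Agent.P272.K Vale.Agent.P285.H281.FD Vale.Agent.P281Z
open Vale.Agent.P280Z.Mp (Eqs)
open Vale.Agent.P277Z.Slc (lin dd)
open Vale.Agent.P277.HD (pull)
open Vale.Agent.P280Z.Ld (Γ Va res)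
open Vale.Agent.P280Z.Tr (Mo MF)

noncomputable section

namespace Vale.Agent.P280Z

namespace NS
variable {A B : Type} [CommRing A] [Algebra ℝ A] [CommRing B] [Algebra ℝ B] (S : NS A B)

/-- the Euler characteristic of `a τ - b K` on the fibres of `e` -/
def χF (r : ℕ) (a b : ℤ) : A :=
  S.el (coeff r (Vale.Agent.P280Z.Ex (C ((a : ℝ) • S.τ + (b : ℝ) • S.pE 1) + TL S.pE)))

/-- **the seam**: consequences of the theorem of Riemann and Roch, and integrality -/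
structure Xt (n r : ℕ) : Prop where
  ex : S.Ex n (n + r - 1)
  td : S.GX.int (coeff n (Vale.Agent.P280Z.Ex (C 0 + TL S.pX))) = 1
  hX : ∀ j : ℕ, ∃ m : ℕ,
    S.GX.int (coeff n (Vale.Agent.P280Z.Ex (C ((j : ℝ) • S.pX 1) + TL S.pX))) = m
  intX : ∃ z : ℤ, S.GX.int (S.pX 1 ^ n) = z
  intU : ∀ i j l, i + j + l = n + r →
    ∃ z : ℤ, S.GU.int (S.es (S.pX 1) ^ i * S.τ ^ j * S.pE 1 ^ l) = z
  intF : ∀ j l, j + l = r → ∃ z : ℤ, S.el (S.τ ^ j * S.pE 1 ^ l) = z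
  hF : ∀ (a b : ℤ) (x y : ℝ), 0 < x →
    (a : ℝ) • S.τ + ((b : ℝ) + 1) • S.pE 1 = x • (-S.τ) + y • S.hh → ∃ m : ℕ, S.χF r a b = m
  one : ∀ x y : ℝ, 0 < x → S.pE 1 = x • (-S.τ) + y • S.hh → S.χF r 0 0 = 1
  van : ∀ (a b : ℤ) (x y x' y' : ℝ), 0 < r → 0 < x → x' < 0 →
    (a : ℝ) • S.τ + ((b : ℝ) + 1) • S.pE 1 = x • (-S.τ) + y • S.hh →
    (a : ℝ) • S.τ + (b : ℝ) • S.pE 1 = x' • (-S.τ) + y' • S.hh → S.χF r a b = 0
  oneK : ∀ x : ℝ, 0 < x → S.pK 1 = x • S.aa →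
    S.GU.int (S.hh * coeff (n + r - 1) (Vale.Agent.P280Z.Ex (C 0 + TL S.pK))) = 1

end NS

namespace R1

/-- row XT -/
def XT : Prop := ∀ T : CT, Rh.Th T → ∀ {n m N r d D k δ : ℕ} {V : Mf n} {P : Eqs r N}
  {pt : Cm N → V.X} (F : Mp.Fam V P pt d D k) (E : VB F.U.X), Cv.Sit T δ F m E →
  (Cv.nsF T F E).Xt n m

/-- quantification over numerical structures -/
def Al (n r : ℕ) (R : ∀ {A B : Type} [CommRing A] [Algebra ℝ A] [CommRing B] [Algebra ℝ B],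
    NS A B → Prop) : Prop :=
  ∀ {A B : Type} [CommRing A] [Algebra ℝ A] [CommRing B] [Algebra ℝ B] (S : NS A B), S.OK n r →
    S.Xt n r → R S

/-- the fibres look like projective spaces on which `-τ` has degree `q` -/
def PN {A B : Type} [CommRing A] [Algebra ℝ A] [CommRing B] [Algebra ℝ B] (S : NS A B)
    (r q : ℕ) : Prop :=
  (∃ y : ℝ, S.pE 1 = (((r : ℝ) + 1) / q) • (-S.τ) + y • S.hh) ∧ S.el ((-S.τ) ^ r) = q ^ r

/-- the algebra of the case `(5, 1)` -/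
def M51 : Prop := Al 5 1 fun S => PN S 1 3

/-- the algebra of the case `(6, 2)` -/
def M62 : Prop := Al 6 2 fun S => PN S 2 2

/-- row REXT: extension from a fibre -/
def REXT : Prop := ∀ T : CT, T.OK → ∀ {n m r N : ℕ} (X : Mf n) (U : Mf m) (Z : Mf r)
  (e : U.X → X.X) (se : Sub m n e) (A : Bd X.X) (s : Fin N → A.ι → X.X → ℂ) (M : Bd U.X) (x : X.X)
  (i : Z.X → U.X), m = n + r → Va n A s → IsLB m M → Emb r m i (e ⁻¹' {x}) →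
  T.Kc U (T.c1 U M - T.c1 U (Bd.can m U.X) - (n : ℝ) • T.pull se.hol (T.c1 X A)) →
  ∀ u ∈ Γ r (pull i M), ∃ σ ∈ Γ m M, res i M σ = u

/-- rows KOB1, KOB2: the theorem of Kobayashi and Ochiai -/
def KOB (r : ℕ) : Prop := ∀ T : CT, T.OK → Gm.HRR T → ∀ (Z : Mf r) (L : Bd Z.X),
  ConnectedSpace Z.X → IsLB r L → T.Kc Z (T.c1 Z L) →
  T.c1 Z (Bd.can r Z.X) = -(((r : ℝ) + 1) • T.c1 Z L) → T.int Z (T.c1 Z L ^ r) = 1 → Bpf r L

/-- row FIN2: an infinite analytic set in a surface contains a germ of a smooth curve -/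
def FIN2 : Prop := ∀ (Z : Mf 2) (A : Set Z.X), An 2 A → A.Finite ∨ ∃ x h, ∃ e : Chart 2 Z.X,
  At e x ∧ P277Z.Hol 2 h x ∧ h x = 0 ∧ dd h e x ≠ 0 ∧ ∀ᶠ y in 𝓝 x, h y = 0 → y ∈ A

/-- row ONTO: an embedding into the projective space of the same dimension is onto -/
def ONTO : Prop := ∀ {r : ℕ} (Z : Mf r) (L : Bd Z.X) (s : Fin (r + 1) → L.ι → Z.X → ℂ),
  Nonempty Z.X → Va r L s → ∀ v : Cm (r + 1), v ≠ 0 →
  ∃ z a, z ∈ L.U a ∧ ∃ c : ℂ, ∀ j, v j = c * s j a z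

/-- row TFB: the tangent spaces of a fibre -/
def TFB : Prop := ∀ {n m r : ℕ} (X : Mf n) (U : Mf m) (Z : Mf r) (e : U.X → X.X) (x : X.X)
  (i : Z.X → U.X), m = n + r → Sub m n e → Emb r m i (e ⁻¹' {x}) →
  ∀ z (χ : Chart m U.X) (χ' : Chart n X.X) (ψ : Chart r Z.X), At χ (i z) → At χ' x → At ψ z →
  ∀ w, df e χ χ' (i z) w = 0 → ∃ v, (v = 0 → w = 0) ∧
    ∀ f : U.X → ℂ, P277Z.Hol m f (i z) → dd (fun y => f (i y)) ψ z v = dd f χ (i z) w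

section
variable {n m : ℕ} {X : Mf n} {U : Mf m}

/-- the sections `s j` are homogeneous coordinates on the fibres over `O` -/
structure RP (e : U.X → X.X) (M : Bd U.X) {r : ℕ} (s : Fin (r + 1) → M.ι → U.X → ℂ)
    (O : Set X.X) : Prop where
  opn : IsOpen O
  lb : IsLB m M
  sec : ∀ j, IsSec m M (s j)
  nz : ∀ u a, e u ∈ O → u ∈ M.U a → (fun j => s j a u) ≠ 0
  onto : ∀ x ∈ O, ∀ v : Cm (r + 1), v ≠ 0 →
    ∃ u a, e u = x ∧ u ∈ M.U a ∧ ∃ c : ℂ, ∀ j, v j = c * s j a u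
  pts : ∀ u u' a b (c : ℂ), e u ∈ O → e u' = e u → u ∈ M.U a → u' ∈ M.U b →
    (∀ j, s j b u' = c * s j a u) → u' = u
  tan : ∀ u a (χ : Chart m U.X) (χ' : Chart n X.X) w (c : ℂ), e u ∈ O → u ∈ M.U a → At χ u →
    At χ' (e u) → df e χ χ' u w = 0 → (∀ j, dd (s j a) χ u w = c * s j a u) → w = 0

/-- the fibres are connected Fano manifolds, `-K = (r + 1) l`, `l ^ r = 1` -/
def PF (T : CT) (e : U.X → X.X) (r : ℕ) (l : T.H U) : Prop :=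
  ∀ (Z : Mf r) (i : Z.X → U.X) (x : X.X) (h : Emb r m i (e ⁻¹' {x})), ConnectedSpace Z.X ∧
    T.Kc Z (T.pull h.hol l) ∧ T.c1 Z (Bd.can r Z.X) = -(((r : ℝ) + 1) • T.pull h.hol l) ∧
    T.int Z (T.pull h.hol l ^ r) = 1

/-- the sections on the fibres extend -/
def EX (e : U.X → X.X) (r : ℕ) (M : Bd U.X) : Prop :=
  IsLB m M ∧ ∀ (Z : Mf r) (i : Z.X → U.X) (x : X.X), Emb r m i (e ⁻¹' {x}) →
    ∀ u ∈ Γ r (pull i M), ∃ σ ∈ Γ m M, res i M σ = u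

end

/-- row RPX: relative coordinates -/
def RPX : Prop := ∀ T : CT, T.OK → Gm.HRR T → ∀ {n m r : ℕ} (X : Mf n) (U : Mf m) (e : U.X → X.X)
  (M : Bd U.X), m = n + (r + 1) → Sub m n e → KOB (r + 1) → PF T e (r + 1) (T.c1 U M) →
  EX e (r + 1) M → ∀ x, ∃ (s : Fin (r + 1 + 1) → M.ι → U.X → ℂ) (O : Set X.X), x ∈ O ∧ RP e M s O

/-- row TVX: relative trivialisations -/
def TVX : Prop := ∀ T : CT, T.OK → Gm.HRR T → ∀ {n m r : ℕ} (X : Mf n) (U : Mf m) (e : U.X → X.X)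
  (M : Bd U.X) (l : T.H U), m = n + r → Sub m n e → PF T e r l → EX e r M →
  (∀ (Z : Mf r) (i : Z.X → U.X) (x : X.X) (h : Emb r m i (e ⁻¹' {x})),
    T.pull h.hol (T.c1 U M) = 0) →
  ∀ x, ∃ (t : M.ι → U.X → ℂ) (O : Set X.X), x ∈ O ∧ IsOpen O ∧ IsSec m M t ∧
    ∀ u, e u ∈ O → NZ M t u

/-- a parametrisation of the model cone by forms of degree `q` -/
structure Par {ν p : ℕ} (Mc : Mo ν p) (q : ℕ) (vr : Cm (p + 1) → Cm ν) : Prop where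
  an : ∀ v, AnalyticAt ℂ vr v
  hom : ∀ (c : ℂ) v, vr (c • v) = c ^ q • vr v
  pos : 0 < q
  mem : ∀ w, w ∈ Mc.C ↔ ∃ v, v ≠ 0 ∧ vr v = w
  nz : ∀ v, v ≠ 0 → vr v ≠ 0
  inj : ∀ v v' (c : ℂ), v ≠ 0 → v' ≠ 0 → vr v' = c • vr v → ∃ c' : ℂ, v' = c' • v
  imm : ∀ v w (c : ℂ), v ≠ 0 → fderiv ℂ vr v w = c • vr v → ∃ c' : ℂ, w = c' • v

/-- row ASM: the input of block Tr -/
def ASM : Prop := ∀ {n N r d D k ν p q : ℕ} {V : Mf n} {P : Eqs r N} {pt : Cm N → V.X}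
  (F : Mp.Fam V P pt d D k) (Mc : Mo ν p) (vr : Cm (p + 1) → Cm ν) (M : Bd F.U.X) (B : Bd V.X)
  (s : Fin (p + 1) → M.ι → F.U.X → ℂ) (O O' : Set V.X) t, Par Mc q vr → RP F.e M s O →
  IsLB (k + 1) (Tb F) → IsLB n B → IsOpen O' →
  IsSec (k + 1) (lin ![Tb F, M, pull F.e B] ![-1, -(q : ℤ), 1]) t →
  (∀ u, F.e u ∈ O' → NZ (lin ![Tb F, M, pull F.e B] ![-1, -(q : ℤ), 1]) t u) →
  ∀ x ∈ O, x ∈ O' → ∃ O θ, x ∈ O ∧ MF F Mc O θ

/-- **the output of the block**; `ε (r + 1 - q) = 1` holds for `(r, q) = (2, 2)` and `(1, 3)` -/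
def MFX : Prop := ∀ T : CT, Rh.Th T → ∀ {n m N r d D k δ ν q : ℕ} {V : Mf n} {P : Eqs r N}
  {pt : Cm N → V.X} (F : Mp.Fam V P pt d D k) (E : VB F.U.X) (Mc : Mo ν (m + 1)) vr (ε : ℤ),
  Cv.Sit T δ F (m + 1) E → PN (Cv.nsF T F E) (m + 1) q → KOB (m + 1) → Par Mc q vr →
  ε * ((m : ℤ) + 2 - q) = 1 → ∀ x, ∃ O θ, x ∈ O ∧ MF F Mc O θ

/-- row MOD2: the Veronese surface -/
def MOD2 : Prop := ∃ (Mc : Mo 6 2) (vr : Cm 3 → Cm 6), Par Mc 2 vr ∧ Mc.Sm ∧ Mc.Osc ∧ Mc.Dl 0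

/-- row SCC: coverings and chains -/
def SCC : Prop := ∀ T : CT, Rh.Th T → ∀ {n m N r d D k δ : ℕ} {V : Mf n} {P : Eqs r N}
  {pt : Cm N → V.X} (F : Mp.Fam V P pt d D k) (E : VB F.U.X), Cv.Sit T δ F m E → 0 < n →
  Tr.SC V ∧ Tr.CC F.p F.e

end R1

end Vale.Agent.P280Z
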