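import Vale.Agent.P280Z.R1.Defs

/-!
# P280Z, block R1: descent of line bundles along the evaluation map (statements)
-/

open Set
open Vale.Agent.P272.K Vale.Agent.P285.H281.FD Vale.Agent.P281Z
open Vale.Agent.P280Z.Mp (Eqs)
open Vale.Agent.P277.HD (pull)

noncomputable section

namespace Vale.Agent.P280Z

/-- a class `a τ - b K` which vanishes on the fibres (surfaces) comes from the base -/
def NS.Desc {A B : Type} [CommRing A] [Algebra ℝ A] [CommRing B] [Algebra ℝ B] (S : NS A B) :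
    Prop := ∀ a b : ℤ, 0 < a → 0 < b → S.el (((a : ℝ) • S.τ + (b : ℝ) • S.pE 1) * S.τ) = 0 →
  S.el (((a : ℝ) • S.τ + (b : ℝ) • S.pE 1) ^ 2) = 0 →
  ∃ y : ℝ, (a : ℝ) • S.τ + (b : ℝ) • S.pE 1 = y • S.hh

namespace R1

/-- row RAMP: relatively positive line bundles -/
def RAMP : Prop := ∀ {n m r : ℕ} (X : Mf n) (U : Mf m) (e : U.X → X.X) (L : Bd U.X) (A : Bd X.X),
  m = n + r → Sub m n e → IsLB m L → IsLB n A → Pos n A →
  (∀ (Z : Mf r) (i : Z.X → U.X) (x : X.X), Emb r m i (e ⁻¹' {x}) → Pos r (pull i L)) →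
  ∃ c : ℕ, Pos m (L.mul (pull e (A.pow c)))

/-- row DSB: descent of line bundles -/
def DSB : Prop := ∀ T : CT, T.OK → ∀ {n m : ℕ} (X : Mf n) (U : Mf m) (e : U.X → X.X)
  (se : Sub m n e) (M : Bd U.X), IsLB m M → (∀ x, IsConnected (e ⁻¹' {x})) →
  (∀ x, ∃ (t : M.ι → U.X → ℂ) (O : Set X.X), x ∈ O ∧ IsOpen O ∧ IsSec m M t ∧
    ∀ u, e u ∈ O → NZ M t u) →
  ∃ B, IsLB n B ∧ T.c1 U M = T.pull se.hol (T.c1 X B)

/-- **descent** -/
def DESC : Prop := ∀ T : CT, Rh.Th T → ∀ {n N r d D k δ : ℕ} {V : Mf n} {P : Eqs r N}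
  {pt : Cm N → V.X} (F : Mp.Fam V P pt d D k) (E : VB F.U.X), Cv.Sit T δ F 2 E →
  (Cv.nsF T F E).Desc

end R1

end Vale.Agent.P280Z
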