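import Vale.Agent.P280Z.R1.Defs
import Vale.Agent.P281Z.Sc.Bd
import Vale.Agent.P281Z.Mf.Loc

/-!
# P280Z, block R1: the fibres and the model cone
-/

open scoped Manifold ContDiff Topology Matrix
open Set Filter
open Vale.Agent.P272.K Vale.Agent.P285.H281.FD Vale.Agent.P281Z
open Vale.Agent.P280Z.Mp (Eqs)
open Vale.Agent.P277Z (Hol)
open Vale.Agent.P277Z.Slc (lin dd dd_congr)
open Vale.Agent.P277.HD (pull)
open Vale.Agent.P280Z.Tr (Mo MF)

noncomputable section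

namespace Vale.Agent.P280Z.R1

namespace Asm

/-- an index of the product of three bundles -/
def ix {X : Type} {A M B : Bd X} (k : Fin 3 → ℤ) (i : A.ι) (l : M.ι) (b : B.ι) :
    (lin ![A, M, B] k).ι := Fin.cons i (Fin.cons l (Fin.cons b finZeroElim))

theorem ix_mem {X : Type} {A M B : Bd X} (k : Fin 3 → ℤ) {i : A.ι} {l : M.ι} {b : B.ι} {x : X}
    (h1 : x ∈ A.U i) (h2 : x ∈ M.U l) (h3 : x ∈ B.U b) :
    x ∈ (lin ![A, M, B] k).U (ix k i l b) := by
  intro a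
  fin_cases a
  exacts [h1, h2, h3]

theorem ix_g {X : Type} {A M B : Bd X} (k : Fin 3 → ℤ) (i i' : A.ι) (l l' : M.ι) (b b' : B.ι)
    (x : X) : (lin ![A, M, B] k).g (ix k i l b) (ix k i' l' b') x =
      A.g i i' x ^ k 0 * M.g l l' x ^ k 1 * B.g b b' x ^ k 2 :=
  Fin.prod_univ_three fun a => (![A, M, B] a).g (ix k i l b a) (ix k i' l' b' a) x ^ k a

theorem dd_smul {m a c : ℕ} {X : Type} [TopologicalSpace X] [ChartedSpace (Cm m) X] {T : X → ℂ}
    {s : Fin a → X → ℂ} {vr : Cm a → Cm c} {u : X} {χ : Chart m X} (hχ : At χ u) (hT : Hol m T u)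
    (hs : ∀ j, Hol m (s j) u) (hv : ∀ v, AnalyticAt ℂ vr v) (w : Cm m) (j : Fin c) :
    dd (fun y => (T y • vr fun i => s i y) j) χ u w =
      (T u • fderiv ℂ vr (fun i => s i u) (fun i => dd (s i) χ u w) +
        dd T χ u w • vr fun i => s i u) j := by
  have h1 : HasFDerivAt (fun z i => s i (χ.symm z)) (ContinuousLinearMap.pi fun i => dd (s i) χ u)
      (χ u) := hasFDerivAt_pi.2 fun i => (hs i χ hχ).differentiableAt.hasFDerivAt
  have h2 := (hT χ hχ).differentiableAt.hasFDerivAt.smul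
    ((hv _).differentiableAt.hasFDerivAt.comp (χ u) h1)
  have h3 := ((ContinuousLinearMap.proj (R := ℂ) (φ := fun _ : Fin c => ℂ) j).hasFDerivAt.comp
    (χ u) h2).fderiv
  refine (DFunLike.congr_fun h3 w).trans ?_
  simp only [Function.comp_apply, χ.left_inv hχ.2]
  rfl

end Asm

open Asm

theorem asm : ASM := by
  intro n N r d D k ν p q V P pt F Mc vr M B s O O' t hP hR lT lB hO' ht hz x hx hx'
  obtain ⟨b, hb⟩ := lB.cover x
  choose l hl using hR.lb.cover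
  let T : (Tb F).ι → M.ι → F.U.X → ℂ := fun i a => t (ix (B := pull F.e B) _ i a b)
  have T0 : ∀ i a u, u ∈ (Tb F).U i → u ∈ M.U a → F.e u ∈ O ∩ O' ∩ B.U b → T i a u ≠ 0 :=
    fun i a u h1 h2 h3 => hz u h3.1.2 _ (ix_mem _ h1 h2 h3.2)
  have Th : ∀ i a u, u ∈ (Tb F).U i → u ∈ M.U a → F.e u ∈ O ∩ O' ∩ B.U b →
      Hol (k + 1) (T i a) u := fun i a u h1 h2 h3 => sec_hol ht (ix_mem _ h1 h2 h3.2)
  have key : ∀ i i' a a' u, u ∈ (Tb F).U i → u ∈ (Tb F).U i' → u ∈ M.U a → u ∈ M.U a' →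
      F.e u ∈ O ∩ O' ∩ B.U b → T i' a' u • (vr fun j => s j a' u) =
        (Tb F).g i i' u • T i a u • vr fun j => s j a u := by
    intro i i' a a' u h1 h2 h3 h4 h5
    have k1 := (ht.change _ _ u (ix_mem (B := pull F.e B) _ h1 h3 h5.2)
      (ix_mem _ h2 h4 h5.2)).trans (congrArg (· * _) (ix_g (B := pull F.e B) _ i i' a a' b b u))
    have k2 : (fun j => s j a u) = M.g a a' u • fun j => s j a' u :=
      funext fun j => (hR.sec j).change a a' u h3 h4
    have k3 : (pull F.e B).g b b u = 1 := lb_self lB h5.2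
    have k4 := lT.ne_zero i i' u h1 h2
    have k5 := pow_ne_zero q (hR.lb.ne_zero a a' u h3 h4)
    rw [k2, hP.hom, smul_smul, smul_smul]
    congr 1
    change T i a u = _ * T i' a' u at k1
    rw [k1, k3]
    simp only [Matrix.cons_val_zero, Matrix.cons_val_one, zpow_neg, zpow_one, zpow_natCast,
      one_zpow]
    field_simp
  have near : ∀ i a u, u ∈ (Tb F).U i → u ∈ M.U a → F.e u ∈ O ∩ O' ∩ B.U b → ∀ᶠ y in 𝓝 u,
      T i (l y) y • (vr fun j => s j (l y) y) = T i a y • vr fun j => s j a y := by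
    intro i a u h1 h2 h3
    filter_upwards [lb_near lT h1, lb_near hR.lb h2, F.e_hol.cont.continuousAt.eventually
      (((hR.opn.inter hO').inter (lB.isOpen b)).mem_nhds h3)] with y k1 k2 k3
    rw [key i i a _ y k1 k1 k2 (hl y) k3, lb_self lT k1, one_smul]
  refine ⟨O ∩ O' ∩ B.U b, fun i u => T i (l u) u • vr fun j => s j (l u) u, ⟨⟨hx, hx'⟩, hb⟩,
    (hR.opn.inter hO').inter (lB.isOpen b), fun i u h1 h2 j χ hχ => ?_,
    fun i i' u h1 h2 h3 => key i i' _ _ u h1 h2 (hl u) (hl u) h3, fun i u h1 h2 => ?_,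
    fun y hy v hv => ?_, fun i i' u h1 u' h2 h3 h4 c h5 => ?_,
    fun i u h1 h2 χ χ' hχ hχ' w c h3 h4 => ?_⟩
  · have k1 := ((AnV.pi fun j => sec_hol (hR.sec j) (hl u)).cmp (hP.an _)).hol j χ hχ
    refine ((Th i _ u h1 (hl u) h2 χ hχ).mul k1).congr ?_
    filter_upwards [at_ev hχ (near i _ u h1 (hl u) h2)] with z hz
    exact (congrFun hz j).symm
  · obtain ⟨c, hc⟩ := IsAlgClosed.exists_pow_nat_eq (T i (l u) u) hP.pos
    have c0 : c ≠ 0 := fun h => T0 i _ u h1 (hl u) h2 (by rw [← hc, h, zero_pow hP.pos.ne'])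
    exact (hP.mem _).2 ⟨_, smul_ne_zero c0 (hR.nz u _ h2.1.1 (hl u)), by rw [hP.hom, hc]⟩
  · obtain ⟨v₀, h0, rfl⟩ := (hP.mem v).1 hv
    obtain ⟨u, a, rfl, h1, c, h2⟩ := hR.onto y hy.1.1 v₀ h0
    obtain ⟨i, hi⟩ := lT.cover u
    refine ⟨i, u, hi, rfl, c ^ q / T i a u, ?_⟩
    rw [(near i a u hi h1 hy).self_of_nhds, smul_smul, div_mul_cancel₀ _ (T0 i a u hi h1 hy),
      ← hP.hom]
    exact congrArg vr (funext h2)
  · have h6 : F.e u' ∈ O ∩ O' ∩ B.U b := h4 ▸ h3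
    obtain ⟨c', hc'⟩ := hP.inj _ _ ((T i' (l u') u')⁻¹ * (c * T i (l u) u))
      (hR.nz u _ h3.1.1 (hl u)) (hR.nz u' _ h6.1.1 (hl u')) (by
        rw [mul_smul, mul_smul, ← h5, smul_smul, inv_mul_cancel₀ (T0 i' _ u' h2 (hl u') h6),
          one_smul])
    exact hR.pts u u' _ _ c' h3.1.1 h4 (hl u) (hl u') fun j => congrFun hc' j
  · have k1 : ∀ j, _ = _ := fun j => (dd_smul hχ (Th i _ u h1 (hl u) h2)
      (fun j => sec_hol (hR.sec j) (hl u)) hP.an w j).symm.trans ((DFunLike.congr_fun (dd_congr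
        ((near i _ u h1 (hl u) h2).mono fun y hy => congrFun hy j) hχ) w).symm.trans (h4 j))
    have k0 := T0 i _ u h1 (hl u) h2
    obtain ⟨c', hc'⟩ := hP.imm _ (fun j => dd (s j (l u)) χ u w)
      (c - dd (T i (l u)) χ u w / T i (l u) u) (hR.nz u _ h2.1.1 (hl u)) (funext fun j => by
        have := k1 j
        simp only [Pi.add_apply, Pi.smul_apply, smul_eq_mul] at this ⊢
        field_simp
        linear_combination this)
    exact hR.tan u _ χ χ' w c' h2.1.1 (hl u) hχ hχ' h3 fun j => congrFun hc' j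

end Vale.Agent.P280Z.R1
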