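import Vale.Agent.P280Z.R1.Defs
import Vale.Agent.P280Z.Tr.Top

/-!
# P280Z, block R1: the cases of the Lagrangian Grassmannian
-/

open Vale.Agent.P272.K Vale.Agent.P285.H281.FD Vale.Agent.P281Z
open Vale.Agent.P280Z.Mp (Eqs)

noncomputable section

namespace Vale.Agent.P280Z.R1

/-- the numbers of the fibres, in the situation -/
def NP (n r q : ℕ) : Prop := ∀ T : CT, Rh.Th T → ∀ {N r' d D k δ : ℕ} {V : Mf n} {P : Eqs r' N}
  {pt : Cm N → V.X} (F : Mp.Fam V P pt d D k) (E : VB F.U.X), Cv.Sit T δ F r E →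
  PN (Cv.nsF T F E) r q

theorem np62_of (xt : XT) (h : M62) : NP 6 2 2 := fun T t _ _ _ _ _ _ _ _ _ F E s =>
  h _ s.ns (xt T t F E s)

theorem np51_of (xt : XT) (h : M51) : NP 5 1 3 := fun T t _ _ _ _ _ _ _ _ _ F E s =>
  h _ s.ns (xt T t F E s)

theorem c62_of (np : NP 6 2 2) (kob : KOB 2) (md : MOD2) (scc : SCC) (mfx : MFX) (tr : Tr.TRC) :
    Cv.CS 6 2 := fun T t _ _ _ _ _ _ _ _ _ F E s _ _ =>
  let ⟨Mc, vr, h1, h2, h3, h4⟩ := md
  let ⟨k1, k2⟩ := scc T t F E s (by norm_num)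
  tr F Mc s.hyp s.dim s.dimD s.fano.1 s.cU k1 k2 h2 h3 h4
    (mfx T t (m := 1) F E Mc vr 1 s (np T t F E s) kob h1 (by norm_num))

/-- cases which do not occur -/
theorem cs_of {n r : ℕ} (xt : XT) (h : Al n r fun _ => False) : Cv.CS n r :=
  fun T t _ _ _ _ _ _ _ _ _ F E s _ _ => (h _ s.ns (xt T t F E s)).elim

end Vale.Agent.P280Z.R1
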