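import Vale.Agent.P280Z.R1.Defs
import Vale.Agent.P280Z.Ma.Ex
import Vale.Agent.P280Z.Rh.Api

/-!
# P280Z, block R1: the fibres of the evaluation map are the projectivised model cone
-/

open scoped Manifold ContDiff Topology Matrix
open Set Filter
open Vale.Agent.P272.K Vale.Agent.P285.H281.FD Vale.Agent.P281Z
open Vale.Agent.P280Z.Mp (Eqs)
open Vale.Agent.P277Z.Slc (lin)
open Vale.Agent.P277.HD (pull)
open Vale.Agent.P280Z.Ld (Va)
open Vale.Agent.P280Z.Cv (Sit nsF)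

noncomputable section

namespace Vale.Agent.P280Z.R1

namespace MfxH

variable {T : CT} {n m N r d D k δ : ℕ} {V : Mf n} {P : Eqs r N} {pt : Cm N → V.X}
  {F : Mp.Fam V P pt d D k} {E : VB F.U.X}

theorem kη (h : Sit T δ F m E) : T.Kc V (nsF T F E).η :=
  let ⟨o1, o2, _⟩ := Ma.o1p V P pt h.hyp.cone
  h.ok.po.smul _ (inv_pos.2 (by exact_mod_cast h.hyp.pos)) (h.ok.c1.pos V _ o1 o2)

theorem kc (h : Sit T δ F m E) {x : ℝ} (hx : 0 < x) : ∃ y₀ : ℝ, ∀ y, y₀ ≤ y →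
    T.Kc F.U (x • -(nsF T F E).τ + y • (nsF T F E).hh) := by
  have hT := h.ok
  obtain ⟨l1, l2, -⟩ := Ma.lbs F h.hyp
  obtain ⟨c, hc⟩ := Ma.up F h.hyp (Ma.kn F h.hyp)
  have l3 := lb_pow l1 c
  have k1 := hT.c1.pos _ _ (lb_mul l2 (F.p_hol.lb l3)) hc
  have ea := Ma.aa_eq hT F h.hyp E
  have k2 : T.Nn F.U (nsF T F E).aa :=
    ea ▸ hT.po.mono (hT.po.pull F.p_hol (Ma.kc_lam hT F h.hyp)) fun _ => le_top
  have k3 : T.Nn F.U (nsF T F E).hh := hT.po.mono (hT.po.pull F.e_hol (kη h)) fun _ => le_top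
  have d0 : (d : ℝ) ≠ 0 := by exact_mod_cast h.hyp.pos.ne'
  have e : T.pull F.p_hol (T.c1 F.K (Lam F)) = (d : ℝ) • (nsF T F E).aa := by
    rw [ea, map_smul, smul_smul, mul_inv_cancel₀ d0, one_smul]
  rw [hT.c1.mul _ _ _ l2 (F.p_hol.lb l3), hT.c1.pull F.p_hol _ l3, hT.c1.pow _ _ _ l1, map_smul,
    e] at k1
  have p : (0 : ℝ) < c * d + 1 := by positivity
  refine ⟨x / (c * d + 1) * (2 * (c * d + 2)), fun y hy => ?_⟩
  have k4 := hT.po.add (hT.po.smul _ (div_pos hx p) (hT.po.add k1 (Rh.nn_smul hT k2 zero_le_two)))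
    (Rh.nn_smul hT k3 (sub_nonneg.2 hy))
  obtain ⟨z, rfl⟩ : ∃ z, x = z * (c * d + 1) := ⟨x / _, (div_mul_cancel₀ _ p.ne').symm⟩
  rw [mul_div_cancel_right₀ _ p.ne'] at k4
  refine hT.po.mono (Eq.subst (motive := fun a => (a, _) ∈ T.Sp F.U) ?_ k4) fun _ =>
    inf_le_left.trans inf_le_left
  change z • ((nsF T F E).τ + _ + _) + _ = _
  rw [NS.aa, NS.hc]
  module

theorem can (h : Sit T δ F m E) :
    T.c1 F.U (Bd.can (k + 1) F.U.X) = -((nsF T F E).pE 1 + ((m : ℝ) + 2) • (nsF T F E).hh) ∧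
    T.pull F.e_hol (T.c1 V (Bd.can n V.X)) = -(((m : ℝ) + 2) • (nsF T F E).hh) := by
  have e : T.pull F.e_hol (T.ps V (VB.tan n V.X) 1) = ((m : ℝ) + 2) • (nsF T F E).hh :=
    (congrArg _ h.ns.c1).trans (map_smul _ _ _)
  have e' := (Ma.rel.ps T h.ok F.e_hol h.rel).2.2 1
  rw [e, h.ok.ch.tan] at e'
  rw [h.ok.ch.tan, map_neg] at e
  exact ⟨neg_eq_iff_eq_neg.1 e', neg_eq_iff_eq_neg.1 e⟩

theorem ex (rext : REXT) (h : Sit T δ F m E) {A : Bd V.X} {M : ℕ} {s : Fin M → A.ι → V.X → ℂ}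
    (hA : Va n A s) {a : ℝ} (ha : 0 < a) (e : T.pull F.e_hol (T.c1 V A) = a • (nsF T F E).hh)
    {l : T.H F.U} {x y : ℝ} (hx : 0 < x)
    (hl : l + (nsF T F E).pE 1 = x • -(nsF T F E).τ + y • (nsF T F E).hh) :
    ∃ c : ℕ, ∀ L, IsLB (k + 1) L → T.c1 F.U L = l + (c * a) • (nsF T F E).hh → EX F.e m L := by
  obtain ⟨y₀, k1⟩ := kc h hx
  obtain ⟨c, hc⟩ := exists_nat_ge ((y₀ - y - (m + 2) + n * a) / a)
  rw [div_le_iff₀ ha] at hc
  refine ⟨c, fun L hL eL => ⟨hL, fun Z i z hi => rext T h.ok V F.U Z F.e ⟨F.e_hol, F.e_sbm⟩ A s L z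
    i h.dim hA hL hi ?_⟩⟩
  refine Eq.subst (motive := T.Kc F.U) ?_ (k1 (y + c * a + (m + 2) - n * a) (by linarith))
  rw [eL, (can h).1, e]
  linear_combination (norm := module) -hl

theorem fb (h : Sit T δ F m E) {x : V.X} {Z : Mf m} {i : Z.X → F.U.X}
    (hi : Emb m (k + 1) i (F.e ⁻¹' {x})) :
    T.c1 Z (Bd.can m Z.X) = -T.pull hi.hol ((nsF T F E).pE 1) ∧
      T.pull hi.hol (nsF T F E).hh = 0 := by
  have hT := h.ok
  have c := Gm.FibiH.cart h.dim ⟨F.e_hol, F.e_sbm⟩ hi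
  have z : ∀ a : T.H Gm.FibiH.pt, T.Dg _ 1 a → a = 0 := fun a h =>
    h.symm.trans (hT.rg.pr_zero _ _ _ one_pos)
  refine ⟨?_, ?_⟩
  · obtain ⟨E', hE'⟩ := Ma.rel.ex _ m c.sf' (zero_add m).symm
    rw [← neg_eq_iff_eq_neg, ← hT.ch.tan, (Ma.rel.ps T hT c.sf'.hol hE').2.2,
      z _ (hT.ch.deg _ _ _), map_zero, add_zero]
    exact Ma.rel.bc T hT c h.rel hE' _
  · have k := c.hg.comp c.sf'.hol
    change T.pull hi.hol (T.pull F.e_hol (nsF T F E).η) = 0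
    rw [← hT.rg.pull_comp hi.hol F.e_hol k fun w => (c.comm w).symm,
      hT.rg.pull_comp c.sf'.hol c.hg k fun _ => rfl, z (T.pull c.hg _), map_zero]
    rw [CT.Dg, ← hT.rg.pull_pr]
    exact congrArg _ h.ns.dη

end MfxH

open MfxH in
theorem mfx_of (va : Ld.VA) (cov : Gm.COV) (rext : REXT) (rpx : RPX) (tvx : TVX) (asm : ASM) :
    MFX := by
  intro T t n m N r d D k δ ν q V P pt F E Mc vr ε h ⟨⟨y, hy⟩, hD⟩ kob par hε x
  have hT := h.ok
  have se : Sub (k + 1) n F.e := ⟨F.e_hol, F.e_sbm⟩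
  obtain ⟨o1, o2, -⟩ := Ma.o1p V P pt h.hyp.cone
  obtain ⟨k₀, M₀, s₀, p₀, hA⟩ := va V _ o1 o2
  have d0 : (0 : ℝ) < d := by exact_mod_cast h.hyp.pos
  have q0 : (0 : ℝ) < q := by exact_mod_cast par.pos
  have a0 : (0 : ℝ) < k₀ * d := mul_pos (by exact_mod_cast p₀) d0
  have eA : T.pull F.e_hol (T.c1 V ((O1 P pt).pow k₀)) = (k₀ * d : ℝ) • (nsF T F E).hh := by
    change _ = _ • T.pull F.e_hol ((d : ℝ)⁻¹ • T.c1 V (O1 P pt))
    rw [hT.c1.pow _ _ _ o1, map_smul, map_smul, smul_smul, mul_inv_cancel_right₀ d0.ne']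
  generalize (O1 P pt).pow k₀ = A at s₀ hA eA
  generalize (k₀ * d : ℝ) = a at a0 eA
  obtain ⟨u, hu⟩ : ∃ u : ℝ, u * q = 1 := ⟨_, inv_mul_cancel₀ q0.ne'⟩
  have u0 : 0 < u := (mul_pos_iff_of_pos_right q0).1 (hu ▸ one_pos)
  have hε' : (ε : ℝ) * (m + 2 - q) = 1 := by exact_mod_cast hε
  rw [show (((m + 1 : ℕ) : ℝ) + 1) / q = (m + 2) * u by
    rw [div_eq_iff q0.ne', mul_assoc, hu]; push_cast; ring] at hy
  have e0 : (ε : ℝ) • ((nsF T F E).pE 1 + (nsF T F E).τ) =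
      u • -(nsF T F E).τ + (ε * y) • (nsF T F E).hh := by
    have : (ε : ℝ) * ((m + 2) * u - 1) = u := by linear_combination u * hε' + ε * hu
    rw [hy]
    linear_combination (norm := module) congrArg (· • -(nsF T F E).τ) this
  obtain ⟨c, hc⟩ := ex rext h hA a0 eA (l := u • -(nsF T F E).τ + (ε * y) • (nsF T F E).hh)
    (x := (m + 3) * u) (y := ε * y + y) (by positivity) (by rw [hy]; module)
  have lT := (Ma.lbs F h.hyp).2.1
  have b4 : ∀ j, IsLB (k + 1) (![Bd.can (k + 1) F.U.X, pull F.e (Bd.can n V.X), Tb F,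
      pull F.e A] j) := fun j => by
    fin_cases j
    exacts [Rh.lb_can _, F.e_hol.lb (Rh.lb_can _), lT, F.e_hol.lb hA.lb]
  obtain ⟨M, lM, cM⟩ : ∃ M, IsLB (k + 1) M ∧ T.c1 F.U M =
      u • -(nsF T F E).τ + (ε * y) • (nsF T F E).hh + (c * a) • (nsF T F E).hh := by
    refine ⟨_, lb_lin b4 ![-ε, ε, ε, c], ?_⟩
    rw [hT.c1.lin _ _ _ b4, Fin.sum_univ_four, ← e0]
    simp only [Matrix.cons_val]
    rw [hT.c1.pull F.e_hol _ (Rh.lb_can _), hT.c1.pull F.e_hol _ hA.lb, (can h).1, (can h).2, eA]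
    change _ + _ + _ • (nsF T F E).τ + _ = _
    push_cast
    module
  have pM : ∀ {Z : Mf (m + 1)} {i : Z.X → F.U.X} {x} (hi : Emb (m + 1) (k + 1) i (F.e ⁻¹' {x})),
      T.pull hi.hol (T.c1 F.U M) = u • T.pull hi.hol (-(nsF T F E).τ) := fun hi => by
    simp only [cM, map_add, map_smul, (fb h hi).2, smul_zero, add_zero]
  have pf : PF T F.e (m + 1) (T.c1 F.U M) := fun Z i x hi => by
    rw [pM hi]
    refine ⟨hi.conn.2 (cov T hT t.hrr _ _ _ se h.cU h.fano.1 (Rh.fa_of hT h.fano) x),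
      hT.po.smul _ u0 (h.tau Z i x hi), ?_, ?_⟩
    · rw [(fb h hi).1, hy]
      simp only [map_add, map_smul, (fb h hi).2, smul_zero, add_zero, smul_smul]
      push_cast
      rw [add_assoc, one_add_one_eq_two]
    · rw [smul_pow, map_smul, ← map_pow, (Gm.fibi T hT F.e x h.dim se).2 Z i hi _ (q ^ (m + 1))
        (hD.trans (by rw [map_pow, map_natCast])), smul_eq_mul, ← mul_pow, hu, one_pow]
  obtain ⟨s, O, hO, rp⟩ := rpx T hT t.hrr V F.U F.e M h.dim se kob pf (hc M lM cM) x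
  obtain ⟨c', hc'⟩ := ex rext h hA a0 eA (l := -(nsF T F E).τ - (q : ℝ) • T.c1 F.U M)
    (x := (m + 2) * u) (y := y - q * (ε * y + c * a)) (by positivity) (by
      rw [hy, cM]
      linear_combination (norm := module) congrArg (· • (nsF T F E).τ) hu)
  have lB := lb_pow hA.lb c'
  have b3 := Ma.lb3 lT lM (F.e_hol.lb lB)
  have cN : T.c1 F.U (lin ![Tb F, M, pull F.e (A.pow c')] ![-1, -(q : ℤ), 1]) =
      -(nsF T F E).τ - (q : ℝ) • T.c1 F.U M + (c' * a) • (nsF T F E).hh := by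
    rw [hT.c1.lin _ _ _ b3, Fin.sum_univ_three]
    simp only [Matrix.cons_val]
    rw [hT.c1.pull F.e_hol _ lB, hT.c1.pow _ _ _ hA.lb, map_smul, eA]
    change _ • (nsF T F E).τ + _ + _ = _
    push_cast
    module
  obtain ⟨τ, O', h1, h2, h3, h4⟩ := tvx T hT t.hrr V F.U F.e _ _ h.dim se pf
    (hc' _ (lb_lin b3 _) cN) (fun Z i x hi => by
      rw [cN, map_add, map_sub, map_smul, map_smul, pM hi, (fb h hi).2, smul_zero, add_zero,
        smul_smul, mul_comm, hu, one_smul, sub_self]) x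
  exact asm F Mc vr M _ s O O' τ par rp lT lB h2 h3 h4 x hO h1

end Vale.Agent.P280Z.R1
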