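import Vale.Agent.P280Z.R1.Defs
import Vale.Agent.P280Z.Gm.Rt
import Vale.Agent.P281Z.Mf.Fib

/-!
# P280Z, block R1: tangent spaces of fibres and relative trivialisations
-/

open Set Filter
open Vale.Agent.P272.K Vale.Agent.P285.H281.FD Vale.Agent.P281Z
open Vale.Agent.P277.HD (pull)

noncomputable section

namespace Vale.Agent.P280Z.R1

/-- **row TFB** -/
theorem tfb : TFB := by
  intro n m r X U Z e x i _ se hi z χ χ' ψ h1 h2 h3 w hw
  have h4 : At χ' (e (i z)) := (hi.fib z).symm ▸ h2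
  obtain ⟨v, rfl⟩ := (hi.fib_ker se.hol (se.sbm _) h3 h1 h4 w).1 hw
  exact ⟨v, fun h => by rw [h, map_zero], fun f hf =>
    DFunLike.congr_fun (dd_comp hf (hi.hol.at z) h3 h1) v⟩

/-- **row TVX** -/
theorem tvx : TVX := by
  intro T hT hR n m r X U e M l hm se hP hE h0 x
  obtain ⟨Z, i, hi⟩ := fib_emb (y := x) hm se.hol fun u _ => se.sbm u
  obtain ⟨p1, p2, p3, -⟩ := hP Z i x hi
  have hF : Gm.Fa T Z := by
    unfold Gm.Fa
    rw [p3, neg_neg]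
    exact hT.po.smul _ (by positivity) p2
  have l1 := hi.hol.lb hE.1
  obtain ⟨s, s1, s2⟩ := (Gm.rt T hT hR).2 Z _ p1 hF l1
    ((hT.c1.pull hi.hol M hE.1).trans (h0 Z i x hi))
  obtain ⟨t, t1, t2⟩ := hE.2 Z i x hi _ (Ld.nm_mem l1 s1)
  refine ⟨t, (e '' {u | ¬ NZ M t u})ᶜ, ?_, ((Gm.RtH.an_z hE.1 t1.1).closed.isCompact.image
    se.hol.cont).isClosed.isOpen_compl, t1.1, fun u hu => not_not.1 fun k => hu ⟨u, k, rfl⟩⟩
  rintro ⟨u, k1, k2⟩
  obtain ⟨z, rfl⟩ : u ∈ range i := hi.rng.ge k2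
  have h := Ld.nm_nz.2 (s2 z)
  rw [← t2] at h
  exact k1 h

end Vale.Agent.P280Z.R1
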