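import Vale.Agent.P280Z.R1.Sk
import Vale.Agent.P280Z.R1.Mfx
import Vale.Agent.P280Z.R1.Tvx

/-!
# P280Z, block R1: descent along the evaluation map
-/

open Set Filter
open Vale.Agent.P272.K Vale.Agent.P285.H281.FD Vale.Agent.P281Z
open Vale.Agent.P280Z.Mp (Eqs)
open Vale.Agent.P277Z.Slc (lin)
open Vale.Agent.P277.HD (pull)
open Vale.Agent.P280Z.Cv (Sit nsF)

noncomputable section

namespace Vale.Agent.P280Z.R1

namespace DescH

theorem srf {T : CT} (hT : T.OK) {Z : Mf 2} (hc : ConnectedSpace Z.X) {w a : T.H Z} (hw : T.Kc Z w)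
    (ha : a ∈ T.Ty Z) (da : T.Dg Z 1 a) (h1 : T.int Z (a * w) = 0) (h2 : T.int Z (a ^ 2) = 0) :
    a = 0 := by
  by_contra h
  obtain ⟨b, b1, b2⟩ := (hT.ho.hl hw 0 2 rfl).2 _ (hT.rg.dg_mul Z 1 1 _ _ da (hT.po.deg hw))
  obtain ⟨c, rfl⟩ := hT.rg.h0 Z inferInstance b b1
  obtain ⟨z⟩ := hc.toNonempty
  rw [mul_comm, ← Algebra.smul_def] at b2
  rw [← b2, map_smul, smul_eq_mul, mul_eq_zero, or_iff_left (Ma.kc_vol hT hw z).ne'] at h1
  have := hT.ho.hr hw 1 0 rfl a ha da (by rw [pow_one, mul_comm, ← b2, h1, zero_smul]) h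
  rw [pow_zero, mul_one, ← sq, h2, mul_zero] at this
  exact this.false

end DescH

open MfxH DescH in
theorem desc_of (va : Ld.VA) (cov : Gm.COV) (rext : REXT) (ramp : RAMP) (dsb : DSB) : DESC := by
  intro T t n N r d D k δ V P pt F E h a b a0 b0 h1 h2
  have hT := h.ok
  have se : Sub (k + 1) n F.e := ⟨F.e_hol, F.e_sbm⟩
  obtain ⟨o1, o2, -⟩ := Ma.o1p V P pt h.hyp.cone
  obtain ⟨k₀, M₀, s₀, p₀, hA⟩ := va V _ o1 o2
  have d0 : (0 : ℝ) < d := by exact_mod_cast h.hyp.pos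
  have pA : Pos n ((O1 P pt).pow k₀) := hT.kp _ _ hA.lb (by
    rw [hT.c1.pow _ _ _ o1]
    exact hT.po.smul _ (by exact_mod_cast p₀) (hT.c1.pos V _ o1 o2))
  have eA : T.pull F.e_hol (T.c1 V ((O1 P pt).pow k₀)) = (k₀ * d : ℝ) • (nsF T F E).hh := by
    change _ = _ • T.pull F.e_hol ((d : ℝ)⁻¹ • T.c1 V (O1 P pt))
    rw [hT.c1.pow _ _ _ o1, map_smul, map_smul, smul_smul, mul_inv_cancel_right₀ d0.ne']
  generalize (O1 P pt).pow k₀ = A at s₀ hA eA pA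
  generalize (k₀ * d : ℝ) = u at eA
  have b4 : ∀ j, IsLB (k + 1) (![Tb F, Bd.can (k + 1) F.U.X, pull F.e (Bd.can n V.X),
      pull F.e A] j) := fun j => by
    fin_cases j
    exacts [(Ma.lbs F h.hyp).2.1, Rh.lb_can _, F.e_hol.lb (Rh.lb_can _), F.e_hol.lb hA.lb]
  have ex : ∀ b c : ℤ, ∃ M, IsLB (k + 1) M ∧ T.c1 F.U M = (a : ℝ) • (nsF T F E).τ +
      (b : ℝ) • (nsF T F E).pE 1 + (c * u) • (nsF T F E).hh := fun b c => by
    refine ⟨_, lb_lin b4 ![a, -b, b, c], ?_⟩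
    rw [hT.c1.lin _ _ _ b4, Fin.sum_univ_four]
    simp only [Matrix.cons_val]
    rw [hT.c1.pull F.e_hol _ (Rh.lb_can _), hT.c1.pull F.e_hol _ hA.lb, (can h).1, (can h).2, eA]
    change _ • (nsF T F E).τ + _ + _ + _ = _
    push_cast
    module
  have cn := cov T hT t.hrr _ _ _ se h.cU h.fano.1 (Rh.fa_of hT h.fano)
  have fz : ∀ {Z : Mf 2} {i : Z.X → F.U.X} {x} (hi : Emb 2 (k + 1) i (F.e ⁻¹' {x})),
      T.pull hi.hol ((a : ℝ) • (nsF T F E).τ + (b : ℝ) • (nsF T F E).pE 1) = 0 ∧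
        T.Kc Z (T.pull hi.hol ((nsF T F E).pE 1)) := fun {Z i x} hi => by
    obtain ⟨M, lM, cM⟩ := ex b 0
    rw [Int.cast_zero, zero_mul, zero_smul, add_zero] at cM
    have k1 := h.tau Z i x hi
    have k2 := (Gm.fibi T hT F.e x h.dim se).2 Z i hi
    have k3 : T.pull hi.hol ((a : ℝ) • (nsF T F E).τ + (b : ℝ) • (nsF T F E).pE 1) = 0 := by
      refine srf hT (hi.conn.2 (cn x)) k1 (hT.tp.pull _ (cM ▸ hT.tp.c1 _ _ lM)) ?_ ?_ ?_
      · rw [← cM, ← hT.c1.pull hi.hol _ lM]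
        exact hT.c1.deg _ _
      · rw [← map_mul, mul_neg, map_neg, map_neg, neg_eq_zero]
        exact k2 _ 0 (h1.trans (map_zero _).symm)
      · rw [← map_pow]
        exact k2 _ 0 (h2.trans (map_zero _).symm)
    refine ⟨k3, ?_⟩
    have b1 : (0 : ℝ) < b := by exact_mod_cast b0
    have k4 := hT.po.smul ((b : ℝ)⁻¹ * a) (mul_pos (inv_pos.2 b1) (by exact_mod_cast a0)) k1
    rw [map_add, map_smul, map_smul, add_eq_zero_iff_neg_eq, ← smul_neg, ← map_neg] at k3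
    change T.Kc Z (_ • T.pull hi.hol (-(nsF T F E).τ)) at k4
    rwa [mul_smul, k3, inv_smul_smul₀ b1.ne'] at k4
  obtain ⟨L, lL, cL⟩ := ex (b + 1) 0
  obtain ⟨c, hc⟩ := ramp V F.U F.e L A h.dim se lL hA.lb pA fun Z i x hi =>
    hT.kp _ _ (hi.hol.lb lL) (by
      rw [hT.c1.pull hi.hol _ lL, cL, Int.cast_zero, zero_mul, zero_smul, add_zero, Int.cast_add,
        Int.cast_one, add_smul, one_smul, ← add_assoc, map_add, (fz hi).1, zero_add]
      exact (fz hi).2)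
  have lc := lb_pow hA.lb c
  have k1 := hT.c1.pos _ _ (lb_mul lL (F.e_hol.lb lc)) hc
  rw [hT.c1.mul _ _ _ lL (F.e_hol.lb lc), hT.c1.pull F.e_hol _ lc, hT.c1.pow _ _ _ hA.lb, map_smul,
    eA, cL] at k1
  have k3 : T.Nn F.U (nsF T F E).hh := hT.po.mono (hT.po.pull F.e_hol (kη h)) fun _ => le_top
  have k4 := hT.po.mono (hT.po.add k1 (Rh.nn_smul hT k3 (c := (2 : ℕ) + 2) (by positivity)))
    fun _ => inf_le_left
  obtain ⟨M, lM, cM⟩ := ex b (c + n)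
  obtain ⟨B, lB, cB⟩ := dsb T hT V F.U F.e se M lM cn fun x => by
    obtain ⟨Z, i, hi⟩ := fib_emb (y := x) h.dim se.hol fun u _ => se.sbm u
    have l1 := hi.hol.lb lM
    obtain ⟨s, s1, s2⟩ := (Gm.rt T hT t.hrr).2 Z _ (hi.conn.2 (cn x))
      (by rw [Gm.Fa, (fb h hi).1, neg_neg]; exact (fz hi).2) l1 (by
        rw [hT.c1.pull hi.hol M lM, cM, map_add, (fz hi).1, map_smul, (fb h hi).2, smul_zero,
          add_zero])
    obtain ⟨σ, t1, t2⟩ := rext T hT V F.U Z F.e se A s₀ M x i h.dim hA lM hi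
      (Eq.subst (motive := T.Kc F.U) (by
        rw [cM, (can h).1, eA]
        push_cast
        module) k4) _ (Ld.nm_mem l1 s1)
    refine ⟨σ, (F.e '' {u | ¬ NZ M σ u})ᶜ, ?_, ((Gm.RtH.an_z lM t1.1).closed.isCompact.image
      se.hol.cont).isClosed.isOpen_compl, t1.1, fun u hu => not_not.1 fun k => hu ⟨u, k, rfl⟩⟩
    rintro ⟨u, k1, k2⟩
    obtain ⟨z, rfl⟩ : u ∈ range i := hi.rng.ge k2
    have h := Ld.nm_nz.2 (s2 z)
    rw [← t2] at h
    exact k1 h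
  obtain ⟨y, hy⟩ := h.ns.b2 _ (hT.c1.deg V B)
  refine ⟨y - (c + n : ℤ) * u, ?_⟩
  rw [sub_smul, eq_sub_iff_add_eq, ← cM, cB, hy]
  exact map_smul _ _ _

end Vale.Agent.P280Z.R1
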