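import Vale.Agent.P280Z.R1.Defs
import Vale.Agent.P280Z.Gm.Rt
import Vale.Agent.P280Z.Gm.Gcd
import Vale.Agent.P280Z.Gm.Bad
import Vale.Agent.P280Z.Rh.Int
import Vale.Agent.P280Z.Rh.Api
import Vale.Agent.P280Z.Hr.Tdx

/-!
# P280Z, block R1: the theorem of Kobayashi and Ochiai in dimensions one and two
-/

open scoped Manifold ContDiff Topology
open Set Filter
open Vale.Agent.P272.K Vale.Agent.P285.H281.FD Vale.Agent.P281Z Vale.Agent.P280Z.Ld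
open Vale.Agent.P277Z (Hol at_chart hol_const)

noncomputable section

namespace Vale.Agent.P280Z.R1

namespace KobX

variable {T : CT} {n : ℕ} {Z : Mf n} {L M : Bd Z.X} {s : L.ι → Z.X → ℂ}

theorem thin_z [ConnectedSpace Z.X] (hL : IsLB n L) (hs : IsSec n L s) (h : ∃ x, NZ L s x) :
    Thin n {x | ¬ NZ L s x} :=
  h.elim fun x hx => (Gm.RtH.an_z hL hs).thin fun k => (k ▸ mem_univ x : x ∈ {x | ¬ NZ L s x}) hx

theorem dense_nz [ConnectedSpace Z.X] (hL : IsLB n L) (hs : IsSec n L s) (h : ∃ x, NZ L s x) :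
    Dense {x | NZ L s x} := (thin_z hL hs h).2.mono fun _ => not_not.1

theorem ex_nz (hL : IsLB n L) (hs : s ∈ Γ n L) (h : s ≠ 0) : ∃ x, NZ L s x := by
  by_contra! k
  exact h (Γ_ext hs (zero_mem _) fun a x ha => (not_nz hL hs.1 ha).1 (k x))

theorem other {Z : Mf (n + 1)} (x : Z.X) : ∃ y, y ≠ x := by
  by_contra! k
  obtain ⟨w, h1, h2⟩ := ((eventually_nhdsWithin_of_eventually_nhds
    (s := {chartAt (Cm (n + 1)) x x}ᶜ) (P277Z.At.right (at_chart (n := n + 1) x))).and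
      self_mem_nhdsWithin).exists
  exact h2 (h1.symm.trans (congrArg _ (k _)))

theorem lin {A : Type*} [AddCommGroup A] [Module ℂ A] (W : Submodule ℂ A) (φ : A →ₗ[ℂ] ℂ)
    (h : Module.finrank ℂ W = n + 2) :
    ∃ s : Fin (n + 1) → A, (∀ j, s j ∈ W ∧ φ (s j) = 0) ∧ LinearIndependent ℂ s := by
  have : FiniteDimensional ℂ W := Module.finite_of_finrank_eq_succ h
  have h2 := (φ.comp W.subtype).finrank_range_add_finrank_ker
  have h3 := (Submodule.finrank_le (φ.comp W.subtype).range).trans_eq (Module.finrank_self ℂ)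
  obtain ⟨f, hf⟩ := exists_linearIndependent_of_le_finrank (R := ℂ) (M := (φ.comp W.subtype).ker)
    (n := n + 1) (by omega)
  exact ⟨fun j => (f j).1.1, fun j => ⟨(f j).1.2, (f j).2⟩,
    (hf.map' _ (Submodule.ker_subtype _)).map' _ W.ker_subtype⟩

/-- independent sections with two common zeros -/
theorem secs {Z : Mf (n + 1)} {L : Bd Z.X} (hT : T.OK) (hL : IsLB (n + 1) L)
    (h0 : h0 (n + 1) L = n + 2) (h1 : T.int Z (T.c1 Z L ^ (n + 1)) = 1)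
    (hB : ¬ Bpf (n + 1) L) : ∃ s : Fin (n + 1) → L.ι → Z.X → ℂ, (∀ j, s j ∈ Γ (n + 1) L) ∧
      LinearIndependent ℂ s ∧ ¬ (Bs L s).Finite := by
  obtain ⟨x, hx⟩ := not_forall.1 hB
  obtain ⟨y, hy⟩ := other x
  obtain ⟨a, ha⟩ := hL.cover y
  obtain ⟨s, k1, k2⟩ := lin (Γ (n + 1) L)
    ((LinearMap.proj y : (Z.X → ℂ) →ₗ[ℂ] ℂ).comp (LinearMap.proj a)) h0
  refine ⟨s, fun j => (k1 j).1, k2, fun k => ?_⟩
  have h4 := hT.bez Z L s hL (fun j => (k1 j).1.1) k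
  have h5 : 1 < (Bs L s).ncard := (one_lt_ncard k).2
    ⟨y, fun j => (not_nz hL (k1 j).1.1 ha).2 (k1 j).2, x, fun j k' => hx ⟨_, (k1 j).1.1, k'⟩, hy⟩
  rw [h1] at h4
  exact absurd (Nat.cast_le_one.1 h4) (not_le.2 h5)

/-- the quotient of two sections -/
theorem quo [ConnectedSpace Z.X] (hL : IsLB n L) (hM : IsLB n M) {σ : M.ι → Z.X → ℂ}
    (hs : IsSec n L s) (hσ : IsSec n M σ) (h0 : ∃ x, NZ M σ x)
    (h : ∀ x a b, x ∈ L.U a → x ∈ M.U b → ∃ u, Hol n u x ∧ ∀ᶠ y in 𝓝 x, s a y = σ b y * u y) :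
    ∃ v, IsSec n (L.mul (P277.Bd.inv M)) v ∧ ∀ x a b, x ∈ L.U a → x ∈ M.U b → ∀ u, Hol n u x →
      (∀ᶠ y in 𝓝 x, s a y = σ b y * u y) → v (a, b) x = u x := by
  choose! U h1 h2 using h
  have key : ∀ x a b, x ∈ L.U a → x ∈ M.U b → ∀ u, Hol n u x →
      (∀ᶠ y in 𝓝 x, s a y = σ b y * u y) → U x a b x = u x := fun x a b ha hb u hu k =>
    Gm.GcdH.ext (thin_z hM hσ h0) (h1 x a b ha hb) hu (by
      filter_upwards [k, h2 x a b ha hb, lb_near hM hb] with y k1 k2 k3 k4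
        using mul_left_cancel₀ (not_not.1 k4 b k3) (k2.symm.trans k1))
  refine ⟨fun a x => U x a.1 a.2 x, isSec_of (fun a x ha => (h1 x _ _ ha.1 ha.2).congr ?_)
    fun a b x ha hb => ?_, key⟩
  · filter_upwards [(h1 x _ _ ha.1 ha.2).near, (h2 x _ _ ha.1 ha.2).eventually_nhds,
      lb_near hL ha.1, lb_near hM ha.2] with y k1 k2 k3 k4 using (key y _ _ k3 k4 _ k1 k2).symm
  · refine key x _ _ ha.1 ha.2 (fun y => L.g a.1 b.1 y * (M.g a.2 b.2 y)⁻¹ * U x b.1 b.2 y)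
      (((lb_hol hL ha.1 hb.1).mul ((lb_hol hM ha.2 hb.2).inv (hM.ne_zero _ _ x ha.2 hb.2))).mul
        (h1 x _ _ hb.1 hb.2)) ?_
    filter_upwards [h2 x _ _ hb.1 hb.2, lb_near hL ha.1, lb_near hM ha.2, lb_near hL hb.1,
      lb_near hM hb.2] with y k1 k2 k3 k4 k5
    have := hM.ne_zero _ _ y k3 k5
    rw [hs.change _ _ y k2 k4, hσ.change _ _ y k3 k5, k1]
    field_simp

theorem rr (hT : T.OK) (hR : Gm.HRR T) (hc : ConnectedSpace Z.X) (hL : IsLB n L)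
    (hK : T.Kc Z (T.c1 Z L)) (h : T.c1 Z (Bd.can n Z.X) = -(((n : ℝ) + 1) • T.c1 Z L)) :
    T.RR Z 0 = 1 ∧ (h0 n L : ℝ) = T.RR Z (T.c1 Z L) := by
  refine ⟨(Gm.rt T hT hR).1 Z hc ?_, hR Z L hL ?_⟩
  · rw [Gm.Fa, h, neg_neg]
    exact hT.po.smul _ (by positivity) hK
  · rw [Ap, h, show T.c1 Z L - -(((n : ℝ) + 1) • T.c1 Z L) = ((n : ℝ) + 2) • T.c1 Z L by module]
    exact hT.po.smul _ (by positivity) hK

end KobX

open KobX

theorem kob1 : KOB 1 := by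
  intro T hT hR Z L hc hL hK h h1
  obtain ⟨e0, e1⟩ := rr hT hR hc hL hK h
  rw [CT.RR, Hr.coeff_td _ _ (by norm_num), Hr.tdx, map_add] at e0 e1
  rw [map_zero, zero_add] at e0
  rw [e0, ← pow_one (T.c1 Z L), h1] at e1
  by_contra hB
  obtain ⟨s, k1, k2, k3⟩ := secs hT hL (by exact_mod_cast e1.trans one_add_one_eq_two) h1 hB
  exact k3 ((Gm.Bad.fin (thin_z hL (k1 0).1 (ex_nz hL (k1 0) (k2.ne_zero 0)))).subset
    fun x hx => hx 0)

theorem kob2_of (hF : FIN2) : KOB 2 := by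
  intro T hT hR Z L hc hL hK h h1
  obtain ⟨e0, e1⟩ := rr hT hR hc hL hK h
  rw [CT.RR, Hr.coeff_td _ _ (by norm_num), Hr.tdx, hT.ch.tan, h, map_add] at e0 e1
  rw [show (0 : T.H Z) + (1 / 2 : ℝ) • - -((((2 : ℕ) : ℝ) + 1) • T.c1 Z L) =
    (3 / 2 : ℝ) • T.c1 Z L by module, smul_pow, map_smul, map_smul, h1] at e0
  rw [show T.c1 Z L + (1 / 2 : ℝ) • - -((((2 : ℕ) : ℝ) + 1) • T.c1 Z L) =
    (5 / 2 : ℝ) • T.c1 Z L by module, smul_pow, map_smul, map_smul, h1] at e1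
  simp only [smul_eq_mul] at e0 e1
  by_contra hB
  obtain ⟨s, k1, k2, k3⟩ := secs (n := 1) hT hL
    (by exact_mod_cast (show (h0 2 L : ℝ) = 3 by linarith)) h1 hB
  obtain ⟨x, f, e, he, f1, f2, f3, f4⟩ := (hF Z (Bs L s) fun x => (hL.cover x).elim fun a ha =>
    ⟨_, fun j => s j a, fun j => sec_hol (k1 j).1 ha, (lb_near hL ha).mono fun _ k =>
      forall_congr' fun j => not_nz hL (k1 j).1 k⟩).resolve_left k3
  obtain ⟨y, hy⟩ := ex_nz hL (k1 0) (k2.ne_zero 0)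
  obtain ⟨M, σ, hM, hσ, g1, g2⟩ := Gm.gcd Z L s inferInstance hL (fun j => (k1 j).1)
    fun k => (k ▸ mem_univ y : y ∈ Bs L s) 0 hy
  obtain ⟨a, ha⟩ := hL.cover y
  obtain ⟨b, hb⟩ := hM.cover y
  obtain ⟨u, u1, u2⟩ := g1 y a b ha hb 0
  obtain ⟨u', u1', u2'⟩ := g1 y a b ha hb 1
  have h0 : ∃ y, NZ M σ y := ⟨y, (nz_iff hM (fun a b => hσ.change a b y) hb).2
    (left_ne_zero_of_mul (u2.self_of_nhds ▸ hy a ha))⟩
  have h2 : u y ≠ 0 := right_ne_zero_of_mul (u2.self_of_nhds ▸ hy a ha)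
  have h3 : u' y • s 0 + -u y • s 1 ∈ Γ 2 L :=
    add_mem (Submodule.smul_mem _ _ (k1 0)) (Submodule.smul_mem _ _ (k1 1))
  have h4 : ∀ x a b (w w' : Z.X → ℂ), (∀ᶠ z in 𝓝 x, s 0 a z = σ b z * w z) →
      (∀ᶠ z in 𝓝 x, s 1 a z = σ b z * w' z) → ∀ᶠ z in 𝓝 x, (u' y • s 0 + -u y • s 1) a z =
        σ b z * (u' y * w z + -u y * w' z) := fun x a b w w' l1 l2 => by
    filter_upwards [l1, l2] with z l3 l4
    simp only [Pi.add_apply, Pi.smul_apply, smul_eq_mul, l3, l4]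
    ring
  have h5 : ∀ x a b, x ∈ L.U a → x ∈ M.U b → ∃ w, Hol 2 w x ∧
      ∀ᶠ z in 𝓝 x, (u' y • s 0 + -u y • s 1) a z = σ b z * w z := fun x a b ha hb =>
    let ⟨_, l1, l2⟩ := g1 x a b ha hb 0
    let ⟨_, l3, l4⟩ := g1 x a b ha hb 1
    ⟨_, ((hol_const _ x).mul l1).add ((hol_const _ x).mul l3), h4 x a b _ _ l2 l4⟩
  obtain ⟨v, v1, v2⟩ := quo hL hM h3.1 hσ h0 h5
  have hN := lb_mul hL (Rh.lb_inv hM)
  have h6 := (hT.eff Z M σ 1 (fun _ => T.c1 Z L) rfl hM hσ (dense_nz hM hσ h0)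
    fun _ => Rh.kc_nn hT hK).2 (fun _ => hK) ⟨x, g2 x f e he f1 f2 f3 f4⟩
  have h7 := (hT.eff Z _ v 1 (fun _ => T.c1 Z L) rfl hN v1 ((dense_nz hL h3.1 (ex_nz hL h3
    fun k => h2 (neg_eq_zero.1 ((LinearIndependent.pair_iff.1 (by
      simpa only [← List.ofFn_inj, List.ofFn_succ] using show LinearIndependent ℂ ![s 0, s 1] from
        (funext (Fin.forall_fin_two.2 ⟨rfl, rfl⟩) : s = ![s 0, s 1]) ▸ k2) _ _ k).2)))).mono
      fun z hz c hc => by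
        obtain ⟨w, l1, l2⟩ := h5 z c.1 c.2 hc.1 hc.2
        rw [show v c z = w z from v2 z c.1 c.2 hc.1 hc.2 w l1 l2]
        exact right_ne_zero_of_mul (l2.self_of_nhds ▸ hz c.1 hc.1))
    fun _ => Rh.kc_nn hT hK).2 (fun _ => hK) ⟨y, fun k => k (a, b) ⟨ha, hb⟩ ((v2 y a b ha hb _
      (((hol_const _ y).mul u1).add ((hol_const _ y).mul u1')) (h4 y a b _ _ u2 u2')).trans
        (by ring))⟩
  obtain ⟨z, hz⟩ := Rh.int_ T hT Z ![M, L] ⟨L, hL, hT.kp Z L hL hK⟩ (Fin.forall_fin_two.2 ⟨hM, hL⟩)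
  rw [Fin.prod_univ_one] at h6 h7
  rw [hT.c1.mul Z _ _ hL (Rh.lb_inv hM), Rh.c1_inv hT hM, add_mul, neg_mul, map_add, map_neg,
    ← sq, h1] at h7
  rw [Fin.prod_univ_two] at hz
  have h8 : (0 : ℝ) < z := hz ▸ h6
  have h9 : (z : ℝ) < 1 := by rw [← hz]; exact sub_pos.1 h7
  have : 0 < z := by exact_mod_cast h8
  have : z < 1 := by exact_mod_cast h9
  omega

end Vale.Agent.P280Z.R1
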