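import Vale.Agent.P280Z.R1.Defs
import Vale.Agent.P280Z.Tr.VerD

/-!
# P280Z, block R1: the parametrisation of the cone over the Veronese surface
-/

open scoped Topology Matrix
open Set Filter
open Vale.Agent.P272.K
open Vale.Agent.P280Z.Tr (vr vb Ver sy)
open Vale.Agent.P280Z.Tr.Vr

noncomputable section

namespace Vale.Agent.P280Z.R1

namespace Par2H

theorem fd (x y : Cm 3) : fderiv ℂ vr x y = vb x y := by
  have h1 : HasDerivAt (fun t : ℂ => x + t • y) y 0 := by
    simpa using ((hasDerivAt_id (0 : ℂ)).smul_const y).const_add x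
  have h2 := (an_vr (analyticAt_id (𝕜 := ℂ) (z := x))).differentiableAt.hasFDerivAt
  have h3 := HasFDerivAt.comp_hasDerivAt_of_eq 0 h2 h1 (by simp)
  simpa using h3.unique (hd_vr h1)

theorem prop {x x' : Cm 3} {c : ℂ} (h : vr x' = c • vr x) : ∃ t : ℂ, x' = t • x := by
  obtain ⟨t, rfl⟩ := IsAlgClosed.exists_pow_nat_eq c two_pos
  rw [← vr_smul] at h
  by_cases k : t • x = 0
  · refine ⟨0, not_not.1 fun e => vr_ne (mt (·.trans (zero_smul _ _).symm) e) ?_⟩
    rw [h, k, ← zero_smul ℂ x, vr_smul, zero_pow two_ne_zero, zero_smul]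
  · obtain ⟨s, -, e⟩ := vr_eq k h
    exact ⟨s * t, by rw [e, mul_smul]⟩

end Par2H

open Par2H

theorem par2 : Par Ver 2 vr where
  an _ := an_vr analyticAt_id
  hom := vr_smul
  pos := two_pos
  mem _ := Iff.rfl
  nz _ := vr_ne
  inj _ _ _ _ _ := prop
  imm v w c hv h := ⟨c * 2⁻¹, vb_inj hv (by
    rw [← fd, h, map_smul, vb_self, smul_smul, inv_mul_cancel_right₀ two_ne_zero])⟩

/-- row MOD2 -/
theorem mod2 : MOD2 := ⟨Ver, vr, par2, Tr.ver_sm, Tr.ver_osc, Tr.ver_dl⟩

end Vale.Agent.P280Z.R1
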