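import Vale.Agent.P280Z.R1.Defs
import Vale.Agent.P280Z.Gm.Hyp
import Vale.Agent.P281Z.Rs.All

/-!
# P280Z, block R1: analytic sets in surfaces, embeddings of full dimension
-/

open scoped Manifold ContDiff Topology
open Set Filter Function
open Vale.Agent.P272.K Vale.Agent.P285.H281.FD Vale.Agent.P281Z
open Vale.Agent.P277Z (Hol at_chart)
open Vale.Agent.P277Z.Slc (dd Ind)
open Vale.Agent.P280Z.Ld (Va Bs)

noncomputable section

namespace Vale.Agent.P280Z.R1

theorem Onto.ev_const {d : ℕ} {f : Cm d → ℂ} {z : Cm d} (hf : AnalyticAt ℂ f z)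
    (h : ∀ᶠ w in 𝓝 z, fderiv ℂ f w = 0) : ∀ᶠ w in 𝓝 z, f w = f z := by
  obtain ⟨ε, hε, k⟩ := Metric.eventually_nhds_iff_ball.1 (hf.eventually_analyticAt.and h)
  filter_upwards [Metric.ball_mem_nhds z hε] with w hw
  exact Metric.isOpen_ball.is_const_of_fderiv_eq_zero (𝕜 := ℂ) (convex_ball z ε).isPreconnected
    (fun y hy => (k y hy).1.differentiableAt.differentiableWithinAt) (fun y hy => (k y hy).2) hw
    (Metric.mem_ball_self hε)

/-- **row FIN2** -/
theorem fin2 : FIN2 := by
  intro Z A hA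
  obtain ⟨V, g, hg, rfl, -⟩ := par_of_res res 2 Z A hA
  by_cases h : ∃ (d : Fin (2 + 1)) (z : (V d).X) (e : Chart 2 Z.X) (a : Fin 2), At e (g d z) ∧
      Ind d (fun (_ : Fin 1) w => e (g d w) a) z
  · obtain ⟨d, z, e, a, he, hi⟩ := h
    obtain ⟨f, f1, f2, f3, f4⟩ := Gm.hyp (n := 1) (V d) Z (g d) z (fun _ y => e y a) (hg d)
      (fun _ => hol_chart he a) hi
    exact .inr ⟨_, f, e, he, f1, f2, (f4 e he).1, f3.mono fun y k k' => mem_iUnion.2 ⟨d, k k'⟩⟩
  refine .inl (finite_iUnion fun d => IsLocallyConstant.range_finite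
    ((IsLocallyConstant.iff_eventually_eq _).2 fun z => ?_))
  have hc := at_chart (n := d) z
  have he := at_chart (n := 2) (g d z)
  generalize chartAt (Cm d) z = c at hc
  generalize chartAt (Cm 2) (g d z) = e at he
  have h1 : ∀ᶠ w in 𝓝 z, At e (g d w) := (hg d).cont.continuousAt.eventually (at_near he)
  have h2 : ∀ a, ∀ᶠ t in 𝓝 (c z), e (g d (c.symm t)) a = e (g d (c.symm (c z))) a := fun a => by
    refine Onto.ev_const ((hg d).hol (hol_chart he a) c hc) ?_
    filter_upwards [at_ev hc (h1.and (at_near hc)), hc.nhds_target] with t k1 k2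
    by_contra k
    refine h ⟨d, _, e, a, k1.1, Ind.of_chart (fun _ => (hg d).hol (hol_chart k1.1 a)) k1.2
      (linearIndependent_unique_iff.2 ?_)⟩
    rwa [dd, c.right_inv k2]
  filter_upwards [(c.continuousAt hc.2).eventually (eventually_all.2 h2), h1, at_near hc]
    with w k1 k2 k3
  refine e.injOn k2.2 he.2 (funext fun a => ?_)
  simpa only [k3.left_inv, hc.left_inv] using k1 a

/-- **row ONTO** -/
theorem onto : ONTO := by
  intro r Z L s ⟨z₀⟩ h
  have hb : ∀ z, ∃ a l, z ∈ L.U a ∧ s l a z ≠ 0 := fun z => by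
    obtain ⟨a, ha⟩ := h.lb.cover z
    by_contra k
    refine (h.bpf ▸ (fun l c => k ⟨a, l, ha, c a ha⟩ : z ∈ Bs L s) : z ∈ (∅ : Set Z.X))
  set C : Set (Cm (r + 1)) := {v | ∃ z a, z ∈ L.U a ∧ ∃ c : ℂ, ∀ j, v j = c * s j a z}
  have hK : IsClosed {q : Z.X × Cm (r + 1) | ∀ a, q.1 ∈ L.U a → ∀ j k,
      s j a q.1 * q.2 k = s k a q.1 * q.2 j} := by
    refine isOpen_compl_iff.1 (isOpen_iff_mem_nhds.2 fun q hq => ?_)
    simp only [mem_compl_iff, mem_ofPred_eq, not_forall] at hq
    obtain ⟨a, ha, j, k, hq⟩ := hq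
    have c1 : ∀ j k, ContinuousAt (fun q : Z.X × Cm (r + 1) => s j a q.1 * q.2 k) q := fun j k =>
      ((sec_hol (h.sec j).1 ha).cont.comp continuousAt_fst).mul
        ((continuous_apply k).comp continuous_snd).continuousAt
    filter_upwards [((c1 j k).ne_iff_eventually_ne (c1 k j)).1 hq,
      continuousAt_fst.eventually (lb_near h.lb ha)] with y k1 k2 using fun c => k1 (c a k2 j k)
  have hC : IsClosed C := by
    refine (subset_antisymm ?_ ?_ : _ = C) ▸ isClosedMap_snd_of_compactSpace _ hK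
    · rintro _ ⟨⟨z, v⟩, k, rfl⟩
      obtain ⟨a, l, ha, hl⟩ := hb z
      refine ⟨z, a, ha, v l / s l a z, fun j => ?_⟩
      rw [div_mul_eq_mul_div, eq_div_iff hl, mul_comm, mul_comm (v l)]
      exact k a ha l j
    · rintro v ⟨z, a, ha, c, k⟩
      refine ⟨(z, v), fun b hb j l => ?_, rfl⟩
      simp only [k, (h.sec _).1.change b a z hb ha]
      ring
  have hO : IsOpen (C ∩ {0}ᶜ) := isOpen_iff_mem_nhds.2 fun v ⟨⟨z, a, ha, c, k⟩, hv⟩ => by
    refine inter_mem ?_ (isOpen_compl_singleton.mem_nhds hv)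
    have he := at_chart (n := r) z
    generalize chartAt (Cm r) z = e at he
    obtain ⟨l, hl⟩ : ∃ l, c * s l a z ≠ 0 := by
      simpa only [← k, Pi.zero_apply] using Function.ne_iff.1 (show v ≠ 0 from hv)
    have h1 : HasStrictFDerivAt (fun q : ℂ × Cm r => fun j => q.1 * s j a (e.symm q.2)) _
        (c, e z) := hasStrictFDerivAt_pi.2 fun j => hasStrictFDerivAt_fst.mul
      (HasStrictFDerivAt.comp (g := fun w => s j a (e.symm w)) (f := Prod.snd) (c, e z)
        (sec_hol (h.sec j).1 ha e he).hasStrictFDerivAt hasStrictFDerivAt_snd)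
    have h2 := h1.map_nhds_eq_of_surj (LinearMap.range_eq_top.2
      ((LinearMap.injective_iff_surjective_of_finrank_eq_finrank (by simp [add_comm])).1
        ((injective_iff_map_eq_zero _).2 fun ⟨t, w⟩ e0 => by
          have k1 : ∀ j, c * dd (s j a) e z w + s j a (e.symm (e z)) * t = 0 := congrFun e0
          simp only [he.left_inv] at k1
          obtain rfl := h.tan z a e w ha he fun j m => mul_left_cancel₀ (left_ne_zero_of_mul hl)
            (by linear_combination s m a z * k1 j - s j a z * k1 m)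
          have k2 := k1 l
          rw [map_zero, mul_zero, zero_add] at k2
          rw [(mul_eq_zero.1 k2).resolve_left (right_ne_zero_of_mul hl)]
          rfl)))
    simp only [he.left_inv, ← k] at h2
    rw [← h2, mem_map]
    exact mem_of_superset (continuousAt_snd.eventually (at_ev he (lb_near h.lb ha)))
      fun q hq => ⟨_, a, hq, q.1, fun _ => rfl⟩
  have hP : IsConnected ({0}ᶜ : Set (Cm (r + 1))) := by
    refine isConnected_compl_singleton_of_one_lt_rank ?_ 0
    rw [← Module.finrank_eq_rank, finrank_real_of_complex, Module.finrank_fin_fun]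
    exact_mod_cast (by omega : 1 < 2 * (r + 1))
  obtain ⟨a, l, ha, hl⟩ := hb z₀
  have h0 : (fun j => s j a z₀) ≠ 0 := fun c => hl (congrFun c l)
  exact fun v hv => (hP.isPreconnected.subset_of_closure_inter_subset hO
    ⟨_, h0, ⟨z₀, a, ha, 1, fun j => (one_mul _).symm⟩, h0⟩
    (fun w hw => ⟨closure_minimal inter_subset_left hC hw.1, hw.2⟩) hv).1

end Vale.Agent.P280Z.R1
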