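import Vale.Agent.P280Z.R1.Defs
import Vale.Agent.P280Z.En.Ko
import Vale.Agent.P280Z.Gm.Fibi

/-!
# P280Z, block R1: the row RPX
-/

open scoped Manifold ContDiff Topology Matrix
open Set Filter
open Vale.Agent.P272.K Vale.Agent.P285.H281.FD Vale.Agent.P281Z
open Vale.Agent.P277Z (at_chart)
open Vale.Agent.P277Z.Slc (dd)
open Vale.Agent.P277.HD (pull)
open Vale.Agent.P280Z.Ld (Γ Va res Bs res_mem not_nz)

noncomputable section

namespace Vale.Agent.P280Z.R1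

namespace RpxH

variable {T : CT} {n m r : ℕ} {X : Mf n} {U : Mf m} {e : U.X → X.X} {M : Bd U.X}
  {Z : Mf (r + 1)} {i : Z.X → U.X} {x : X.X}

theorem md (hT : T.OK) (hH : Gm.HRR T) (kob : KOB (r + 1)) (pf : PF T e (r + 1) (T.c1 U M))
    (hM : IsLB m M) (h : Emb (r + 1) m i (e ⁻¹' {x})) :
    En.MD T Z (pull i M) ((2 : ℝ) • T.c1 Z (pull i M)) 1 := by
  obtain ⟨h1, h2, h3, h4⟩ := pf Z i x h
  rw [← hT.c1.pull h.hol M hM] at h2 h3 h4
  refine ⟨h1.toPreconnectedSpace, h.hol.lb hM, kob T hT hH Z _ h1 (h.hol.lb hM) h2 h3 h4, h2,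
    hT.po.mono (hT.po.smul 2 two_pos h2) fun _ => le_top, ?_, ?_, by rw [h4, Nat.cast_one]⟩
  · rw [h3]
    push_cast
    module
  · rw [mul_smul_comm, ← pow_succ, map_smul, h4]
    norm_num

theorem bs_iff {V : Mf n} {L : Bd V.X} {κ : Type} {s : κ → L.ι → V.X → ℂ} (hL : IsLB n L)
    (hs : ∀ j, IsSec n L (s j)) {y : V.X} {a : L.ι} (ha : y ∈ L.U a) :
    y ∈ Bs L s ↔ ∀ j, s j a y = 0 := forall_congr' fun j => not_nz hL (hs j) ha

theorem bs_closed {V : Mf n} {L : Bd V.X} {κ : Type} {s : κ → L.ι → V.X → ℂ} (hL : IsLB n L)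
    (hs : ∀ j, IsSec n L (s j)) : IsClosed (Bs L s) :=
  isOpen_compl_iff.1 (isOpen_iff_mem_nhds.2 fun y hy => by
    obtain ⟨a, ha⟩ := hL.cover y
    obtain ⟨j, hj⟩ := not_forall.1 (mt (bs_iff hL hs ha).2 hy)
    filter_upwards [(sec_hol (hs j) ha).cont.eventually_ne hj, lb_near hL ha] with y' h1 h2
    exact fun k => h1 ((bs_iff hL hs h2).1 k j))

/-- sections without common zeros are a basis -/
theorem va_of (hO : ONTO) {T : CT} (hT : T.OK) {L : Bd Z.X} {β : T.H Z} (h : En.MD T Z L β 1)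
    {t : Fin (r + 1 + 1) → L.ι → Z.X → ℂ} (ht : ∀ j, t j ∈ Γ (r + 1) L) (h0 : ∀ z, z ∉ Bs L t) :
    Va (r + 1) L t := by
  obtain ⟨b₀⟩ := h.basis hT
  let b : Module.Basis (Fin (r + 1 + 1)) ℂ (Γ (r + 1) L) := b₀.reindex (finCongr (by omega))
  let t' : Fin (r + 1 + 1) → Γ (r + 1) L := fun j => ⟨t j, ht j⟩
  have h1 : (b.toMatrix t').det ≠ 0 := fun k => by
    obtain ⟨v, hv, k1⟩ := Matrix.exists_vecMul_eq_zero_iff.2 k
    obtain ⟨z, a, ha, c, hc⟩ := hO Z L _ (h.ne hT) (h.emb hT b).2.1 v hv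
    have hc0 : c ≠ 0 := fun k2 => hv (funext fun j => by rw [hc, k2, zero_mul]; rfl)
    refine h0 z ((bs_iff h.lb (fun j => (ht j).1) ha).2 fun j => mul_left_cancel₀ hc0 ?_)
    have k2 : t j a z = ∑ l, b.repr (t' j) l * (b l).1 a z := by
      have k3 := congrArg (fun u : Γ (r + 1) L => u.1 a z) (b.sum_repr (t' j)).symm
      simpa only [Submodule.coe_sum, Submodule.coe_smul, Finset.sum_apply, Pi.smul_apply,
        smul_eq_mul] using k3
    have k3 : ∑ l, v l * b.repr (t' j) l = 0 := congrFun k1 j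
    rw [k2, mul_zero, ← k3, Finset.mul_sum]
    exact Finset.sum_congr rfl fun l _ => by rw [hc]; ring
  obtain ⟨h2, h3⟩ := (b.is_basis_iff_det (v := t')).2 (isUnit_iff_ne_zero.2 h1)
  have h4 := (h.emb hT (Module.Basis.mk h2 h3.ge)).2.1
  simpa only [Module.Basis.mk_apply] using h4

end RpxH

open RpxH in
theorem rpx_of (hO : ONTO) (hF : TFB) : RPX := by
  intro T hT hH n m r X U e M hm se kob pf ex x
  have fb := fun y => (Gm.fibi T hT e y hm se).1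
  obtain ⟨Z, i, h⟩ := fb x
  have h1 := md hT hH kob pf ex.1 h
  obtain ⟨b₀⟩ := h1.basis hT
  let b : Module.Basis (Fin (r + 1 + 1)) ℂ (Γ (r + 1) (pull i M)) :=
    b₀.reindex (finCongr (by omega))
  choose s hs hb using fun j => ex.2 Z i x h (b j).1 (b j).2
  have sec := fun j => (hs j).1
  have va : ∀ y, y ∉ e '' Bs M s → ∀ (Z : Mf (r + 1)) (i : Z.X → U.X),
      Emb (r + 1) m i (e ⁻¹' {y}) → Va (r + 1) (pull i M) fun j => res i M (s j) :=
    fun y hy Z i h => va_of hO hT (md hT hH kob pf ex.1 h) (fun j => res_mem h.hol (hs j))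
      fun z hz => hy ⟨i z, hz, h.mem z⟩
  refine ⟨s, (e '' Bs M s)ᶜ, ?_, ((bs_closed ex.1 sec).isCompact.image se.hol.cont).isClosed.isOpen_compl,
    ex.1, sec, fun u a hu ha k => hu ⟨u, (bs_iff ex.1 sec ha).2 (congrFun k), rfl⟩,
    fun y hy v hv => ?_, fun u u' a a' c hu hu' ha ha' k => ?_,
    fun u a χ χ' w c hu ha hχ hχ' hw k => ?_⟩
  · rintro ⟨u, hu, k⟩
    obtain ⟨z, rfl⟩ := h.ex (y := u) k
    have h2 := (h1.emb hT b).2.1.bpf
    rw [← funext hb] at h2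
    exact (h2 ▸ (hu : z ∈ Bs (pull i M) fun j => res i M (s j)) : z ∈ (∅ : Set Z.X))
  · obtain ⟨Z', i', h'⟩ := fb y
    obtain ⟨z, a, ha, k⟩ := hO Z' _ _ ((md hT hH kob pf ex.1 h').ne hT) (va y hy Z' i' h') v hv
    exact ⟨i' z, a, h'.mem z, ha, k⟩
  · obtain ⟨Z', i', h'⟩ := fb (e u)
    obtain ⟨z', rfl⟩ := h'.ex (y := u') hu'
    obtain ⟨z, rfl⟩ := h'.ex (y := u) rfl
    refine congrArg i' ((va _ hu Z' i' h').pts z' z a' a ha' ha fun j l => ?_)
    change s j a' (i' z') * s l a (i' z) = s l a' (i' z') * s j a (i' z)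
    rw [k, k]
    ring
  · obtain ⟨Z', i', h'⟩ := fb (e u)
    obtain ⟨z, rfl⟩ := h'.ex (y := u) rfl
    obtain ⟨v, h2, h3⟩ := hF X U Z' e _ i' hm se h' z χ χ' _ hχ hχ' (at_chart z) w hw
    refine h2 ((va _ hu Z' i' h').tan z a _ v ha (at_chart z) fun j l => ?_)
    change dd (fun y => s j a (i' y)) _ z v * s l a (i' z) =
      dd (fun y => s l a (i' y)) _ z v * s j a (i' z)
    rw [h3 _ (sec_hol (sec j) ha), h3 _ (sec_hol (sec l) ha), k, k]
    ring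

end Vale.Agent.P280Z.R1
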