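import Vale.Agent.P280Z.R1.Defs
import Vale.Agent.P280Z.Sq.Qj
import Vale.Agent.P280Z.Sq.Qt
import Vale.Agent.P280Z.Sq.Comp
import Vale.Agent.P280Z.Sq.Dist
import Vale.Agent.P280Z.Sq.Rnk
import Vale.Agent.P280Z.Sq.Int
import Vale.Agent.P280Z.Sq.One
import Vale.Agent.P280Z.Sq.Fac
import Vale.Agent.P280Z.Sq.Trx
import Vale.Agent.P280Z.Sq.Leaf
import Vale.Agent.P280Z.Sq.Hol
import Vale.Agent.P280Z.Sq.Germ
import Vale.Agent.P280Z.Sq.Adj
import Vale.Agent.P280Z.Sq.Sf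
import Vale.Agent.P280Z.Sq.Ksub
import Vale.Agent.P280Z.Sq.Lnk
import Vale.Agent.P280Z.Sq.Qb
import Vale.Agent.P280Z.Sq.Fib
import Vale.Agent.P280Z.Gm.All
import Vale.Agent.P280Z.Ma.All
import Vale.Agent.P280Z.Cv.Cmp

/-!
# P280Z, block R1: coverings and chains
-/

open scoped Manifold ContDiff Topology
open Set Filter
open Vale.Agent.P272.K Vale.Agent.P285.H281.FD Vale.Agent.P281Z

noncomputable section

namespace Vale.Agent.P280Z.R1

namespace SccH
open Sq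

theorem qj : QJ :=
  have t : TRX := trx_of comp fac
  have l : LEAF := leaf_of fac int_ t
  qj_of comp (qt_of (dist_of comp rnk) int_ (one_of comp fac int_ plq) t l
    (hol_of t l (germ_of t) adj inj Gm.cov) qb) ksub (sf_of inj) lnk

end SccH

/-- **SCC** -/
theorem scc : SCC := by
  intro T hT n m N r d D k δ V P pt F E h _
  obtain ⟨cV, fV⟩ := (Sq.fa_iff hT.ok).1 h.fano
  refine ⟨fun Y ε hε cY y y' e => by_contra fun c =>
    (Gm.cov T hT.ok hT.hrr Y V ε hε cY cV fV (ε y')).2.infinite_of_nontrivial ⟨y, e, y', rfl, c⟩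
      ((Gm.eta T hT.ok Y V ε hε inferInstance).2 _).1, ?_⟩
  obtain ⟨Q, -⟩ := Ma.p1x F h.hyp
  have se : Sub (k + 1) n F.e := ⟨F.e_hol, F.e_sbm⟩
  let G : Sq.Pf V := ⟨k, F.K, F.U, F.p, F.e, Tb F, Q, ⟨F.p_hol, F.p_sbm⟩, se, h.kU, h.kK, h.cU,
    Cv.CmpH.fib F h.hyp.pos, Gm.cov T hT.ok hT.hrr _ _ _ se h.cU cV fV⟩
  obtain ⟨q, Y, π, hq⟩ := SccH.qj T hT.ok hT.hrr (fun _ : Unit => G) univ h.fano
  obtain ⟨w, hw⟩ := (hT.ok.po.kah Y).1 hq.kah
  obtain ⟨c, hc⟩ := h.ns.b2 (T.pull hq.sub.hol w) (hT.ok.po.deg (hT.ok.po.pull hq.sub.hol hw))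
  have h0 : T.pull hq.sub.hol w = 0 := by
    have h1 := congrArg (T.pull F.p_hol) (hq.ph () trivial w)
    have h2 : T.pull F.p_hol (G.ph T (Cv.nsF T F E).η) = 1 := h.ns.Tη
    rw [hc, Sq.Pf.ph, map_smul, map_smul, map_smul, map_zero] at h1
    have h3 : c • (1 : T.H F.U) = 0 := h2 ▸ h1
    rw [← Algebra.algebraMap_eq_smul_one, ← map_zero (algebraMap ℝ _)] at h3
    rw [hc, Sq.algm_inj hT.ok h.kU h.cU.toNonempty.some h3, zero_smul]
  obtain rfl : q = 0 := by_contra fun c => by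
    obtain ⟨x⟩ := cV.toNonempty
    have h1 := hT.ok.po.pos q (n - q) x (hT.ok.po.pull hq.sub.hol hw) fV
      (Nat.add_sub_cancel' (hq.sub.sbm x).le) rfl
      ((add_comm _ _).trans (Sq.rk_ker (hq.sub.sbm x))).le
    rw [h0, zero_pow c, zero_mul, map_zero] at h1
    exact h1.false
  have h1 : IsLocallyConstant π := (IsLocallyConstant.iff_eventually_eq π).2 fun x =>
    (hq.sub.hol.cont.continuousAt.eventually (at_near (P277Z.at_chart (n := 0) (π x)))).mono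
      fun y k => (chartAt (Cm 0) (π x)).injOn k.2 (mem_chart_source _ _) (Subsingleton.elim _ _)
  intro x y
  have h2 := (hq.rel x y).1 (h1.apply_eq_of_preconnectedSpace x y)
  induction h2 with
  | rel x y h2 => exact h2.elim fun _ k => .single k.2
  | refl x => exact .refl
  | symm x y _ h2 =>
    refine Relation.ReflTransGen.mono ?_ _ _ (Relation.reflTransGen_swap.2 h2)
    exact fun _ _ ⟨u, v, a, b, c⟩ => ⟨v, u, a.symm, c, b⟩
  | trans x y z _ _ h2 h3 => exact h2.trans h3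

end Vale.Agent.P280Z.R1
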