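import Vale.Agent.P280Z.R1.Defs
import Vale.Agent.P280Z.G2.WlD

/-!
# P280Z, block R1: fibres of dimension one (statements)
-/

open Vale.Agent.P272.K Vale.Agent.P285.H281.FD Vale.Agent.P281Z
open Vale.Agent.P280Z.Mp (Eqs)

noncomputable section

namespace Vale.Agent.P280Z.R1

/-- **the index theorem** -/
def WLX (n : ℕ) : Prop := ∀ T : CT, Rh.Th T → ∀ {N r d D k δ : ℕ} {V : Mf n} {P : Eqs r N}
  {pt : Cm N → V.X} (F : Mp.Fam V P pt d D k) (E : VB F.U.X), Cv.Sit T δ F 1 E →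
  (Cv.nsF T F E).WL n

/-- quantification over numerical structures with fibres of dimension one -/
def Al1 (n : ℕ) (R : ∀ {A B : Type} [CommRing A] [Algebra ℝ A] [CommRing B] [Algebra ℝ B],
    NS A B → Prop) : Prop := Al n 1 fun S => S.WL n → R S

theorem cs1_of {n : ℕ} (xt : XT) (wl : WLX n) (h : Al1 n fun _ => False) : Cv.CS n 1 :=
  fun T t _ _ _ _ _ _ _ _ _ F E s _ _ => (h _ s.ns (xt T t F E s) (wl T t F E s)).elim

end Vale.Agent.P280Z.R1
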